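import Crest.Agent.R063.KBlock
import Crest.Agent.R063.KDefs
import Mathlib

-- ▼ part R063/KEvent
section

/-!
# R063: MODULE 2 (the event step)
-/

set_option autoImplicit false
set_option linter.unusedSectionVars false

open Finset

noncomputable section

namespace Crest.Agent.R063

section SumType

variable {κ ι : Type} [Fintype κ] [DecidableEq κ] [Fintype ι] [DecidableEq ι]

/-- iterated expectation on a product of two cubes -/
lemma ev_sumType (F : (κ → Bool) → (ι → Bool) → ℝ) :
    ev (fun x : (κ ⊕ ι) → Bool => F (fun k => x (Sum.inl k)) (fun k => x (Sum.inr k)))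
      = ev (fun y => ev (fun z => F y z)) := by
  unfold ev
  rw [Fintype.card_sum, pow_add, ← Finset.sum_div, div_div, mul_comm (2 ^ Fintype.card κ : ℝ)]
  congr 1
  rw [← Fintype.sum_prod_type' (f := fun y z => F y z)]
  exact Fintype.sum_equiv (Equiv.sumArrowEquivProdArrow κ ι Bool) _ _ fun x => rfl

lemma ev_sumType_mul (F : (κ → Bool) → ℝ) (G : (ι → Bool) → ℝ) :
    ev (fun x : (κ ⊕ ι) → Bool => F (fun k => x (Sum.inl k)) * G (fun k => x (Sum.inr k)))
      = ev F * ev G := by
  rw [ev_sumType (fun y z => F y * G z)]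
  simp_rw [ev_smul]
  have : (fun y => F y * ev G) = fun y => ev G * F y := by ext y; ring
  rw [this, ev_smul]; ring

lemma SS_sumType (x : (κ ⊕ ι) → Bool) :
    SS x = SS (fun k => x (Sum.inl k)) + SS (fun k => x (Sum.inr k)) := by
  unfold SS; rw [Fintype.sum_sum_type]

end SumType

section

variable {ι : Type} [Fintype ι] [DecidableEq ι]

lemma ev_eq_zero_of_nonneg {F : (ι → Bool) → ℝ} (h0 : ∀ x, 0 ≤ F x) (h : ev F = 0) (x : ι → Bool) :
    F x = 0 := by
  unfold ev at h
  rw [div_eq_zero_iff] at h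
  rcases h with h | h
  · exact (Finset.sum_eq_zero_iff_of_nonneg fun y _ => h0 y).mp h x (Finset.mem_univ x)
  · exact absurd h (by positivity)

end

lemma ind_nonneg {β : Type} (A : Set β) (z : β) : 0 ≤ ind A z :=
  Set.indicator_nonneg (fun _ _ => zero_le_one) z


/-- MODULE 2 -/
theorem eventStmt : EventStmt := by
  intro ι _ _ α _ _ _ Z C hZ A hA
  classical
  obtain ⟨Fm, hFm, hAF⟩ := hA
  have hZ0 : ev Z = 0 := hZ.ev_eq_zero
  set P : ℝ := ev (fun x : (Σ _ : α, ι) → Bool => ind A (zv Z x)) with hP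
  set M : ℝ := ev (fun x : (Σ _ : α, ι) → Bool => zsum Z x * ind A (zv Z x)) with hM
  set w : ℝ := M / P with hw
  have hPw : P * w = M := by
    by_cases hP0 : P = 0
    · have h1 : ∀ x : (Σ _ : α, ι) → Bool, ind A (zv Z x) = 0 :=
        ev_eq_zero_of_nonneg (fun x => ind_nonneg A _) hP0
      have h2 : M = 0 := by
        rw [hM]
        have : (fun x : (Σ _ : α, ι) → Bool => zsum Z x * ind A (zv Z x)) = fun _ => 0 := by
          ext x; rw [h1]; ring
        rw [this, ev_const]
      rw [hP0, h2]; ring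
    · rw [hw]; field_simp
  set T : ((Σ _ : α, ι) → Bool) → ℝ := zsum Z with hT
  set I : ((Σ _ : α, ι) → Bool) → ℝ := fun x => ind A (zv Z x) with hI
  let Z' : (((Σ _ : α, ι) ⊕ ι) → Bool) → ℝ := fun x =>
    (1 - I (fun k => x (Sum.inl k))) * T (fun k => x (Sum.inl k))
      + I (fun k => x (Sum.inl k)) * (w + Z (fun k => x (Sum.inr k)))
  have hIv : ∀ y, I y = 0 ∨ I y = 1 := by
    intro y; simp only [hI, ind]
    by_cases h : zv Z y ∈ A <;> simp [h]
  -- splitting of functions of `Z'`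
  have hsplit : ∀ (g : ℝ → ℝ) (x : ((Σ _ : α, ι) ⊕ ι) → Bool), g (Z' x)
      = (1 - I (fun k => x (Sum.inl k))) * g (T (fun k => x (Sum.inl k)))
      + I (fun k => x (Sum.inl k)) * g (w + Z (fun k => x (Sum.inr k))) := by
    intro g x
    simp only [Z']
    rcases hIv (fun k => x (Sum.inl k)) with h | h <;> rw [h] <;> simp
  have hev : ∀ (F₁ F₂ : ((Σ _ : α, ι) → Bool) → ℝ) (G₁ G₂ : (ι → Bool) → ℝ),
      ev (fun x : ((Σ _ : α, ι) ⊕ ι) → Bool => F₁ (fun k => x (Sum.inl k)) * G₁ (fun k => x (Sum.inr k))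
        + F₂ (fun k => x (Sum.inl k)) * G₂ (fun k => x (Sum.inr k)))
      = ev F₁ * ev G₁ + ev F₂ * ev G₂ := by
    intro F₁ F₂ G₁ G₂
    rw [ev_add (fun x : ((Σ _ : α, ι) ⊕ ι) → Bool => F₁ (fun k => x (Sum.inl k)) * G₁ (fun k => x (Sum.inr k)))
      (fun x => F₂ (fun k => x (Sum.inl k)) * G₂ (fun k => x (Sum.inr k))),
      ev_sumType_mul, ev_sumType_mul]
  have hEI : ev I = P := rfl
  refine ⟨(Σ _ : α, ι) ⊕ ι, inferInstance, inferInstance, Z', ⟨?_, ?_⟩, ?_⟩
  · -- degree
    intro g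
    have h1 : (fun x => g (Z' x)) = fun x =>
        (fun y => (1 - I y) * g (T y)) (fun k => x (Sum.inl k))
        + I (fun k => x (Sum.inl k)) * (fun y => g (w + Z y)) (fun k => x (Sum.inr k)) := by
      ext x; exact hsplit g x
    rw [h1]
    refine Deg.add ?_ ?_
    · have h2 : Deg (fun y : (Σ _ : α, ι) → Bool => (1 - I y) * g (T y)) (Fintype.card α * C) :=
        deg_of_dep hZ.deg Finset.univ (fun z => (1 - ind A z) * g (∑ a, z a))
          (fun z z' h => by rw [funext fun b => h b (Finset.mem_univ b)])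
      exact h2.comap (Function.Embedding.inl : (Σ _ : α, ι) ↪ (Σ _ : α, ι) ⊕ ι)
    · have h3 : Deg I ((Fintype.card α - 1) * C) := by
        have h4 : I = fun y => ∑ a, Fm a (zv Z y) := by ext y; exact hAF _
        rw [h4]
        refine Deg.sum _ fun a _ => ?_
        have := deg_of_dep (α := α) hZ.deg (Finset.univ.erase a) (Fm a)
          (fun z z' h => hFm a z z' fun b hb => h b (Finset.mem_erase.mpr ⟨hb, Finset.mem_univ b⟩))
        rwa [Finset.card_erase_of_mem (Finset.mem_univ a), Finset.card_univ] at this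
      have h5 : Deg (fun y => g (w + Z y)) C := hZ.deg (fun t => g (w + t))
      have h6 := (h3.comap (Function.Embedding.inl : (Σ _ : α, ι) ↪ (Σ _ : α, ι) ⊕ ι)).mul
        (h5.comap (Function.Embedding.inr : ι ↪ (Σ _ : α, ι) ⊕ ι))
      refine h6.mono ?_
      have hpos : 0 < Fintype.card α := Fintype.card_pos
      obtain ⟨m, hm⟩ : ∃ m, Fintype.card α = m + 1 := ⟨Fintype.card α - 1, by omega⟩
      rw [hm]
      simp only [Nat.add_sub_cancel]
      rw [Nat.succ_mul]
  · -- martingale property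
    intro g
    have hS0 : ev (SS : (ι → Bool) → ℝ) = 0 := ev_SS
    -- left side
    have hL : ev (fun x => SS x * g (Z' x))
        = ev (fun y => T y * ((1 - I y) * g (T y))) + M * ev (fun y => g (w + Z y))
          + P * ev (fun y => Z y * g (w + Z y)) := by
      have h1 : (fun x => SS x * g (Z' x)) = fun x : ((Σ _ : α, ι) ⊕ ι) → Bool =>
          (((fun y => SS y * ((1 - I y) * g (T y))) (fun k => x (Sum.inl k)) * (fun _ => (1:ℝ)) (fun k => x (Sum.inr k))
          + (fun y => (1 - I y) * g (T y)) (fun k => x (Sum.inl k)) * SS (fun k => x (Sum.inr k)))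
          + ((fun y => SS y * I y) (fun k => x (Sum.inl k)) * (fun y => g (w + Z y)) (fun k => x (Sum.inr k))
          + I (fun k => x (Sum.inl k)) * (fun y => SS y * g (w + Z y)) (fun k => x (Sum.inr k)))) := by
        ext x
        rw [hsplit g x, SS_sumType]
        ring
      have e1 := hev (fun y => SS y * ((1 - I y) * g (T y))) (fun y => (1 - I y) * g (T y))
        (fun _ => (1:ℝ)) SS
      have e2 := hev (fun y => SS y * I y) I (fun y => g (w + Z y)) (fun y => SS y * g (w + Z y))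
      refine (congrArg ev h1).trans ((ev_add _ _).trans ((congrArg₂ (· + ·) e1 e2).trans ?_))
      rw [hS0, ev_const]
      have hm1 : ev (fun y => SS y * ((1 - I y) * g (T y))) = ev (fun y => T y * ((1 - I y) * g (T y))) :=
        mart_block hZ.mart (fun z => (1 - ind A z) * g (∑ a, z a))
      have hm2 : ev (fun y => SS y * I y) = M := mart_block hZ.mart (fun z => ind A z)
      have hm3 : ev (fun y => SS y * g (w + Z y)) = ev (fun y => Z y * g (w + Z y)) :=
        hZ.mart (fun t => g (w + t))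
      rw [hm1, hm2, hm3, hEI]
      ring
    have hR : ev (fun x => Z' x * g (Z' x))
        = ev (fun y => T y * ((1 - I y) * g (T y))) + P * ev (fun y => (w + Z y) * g (w + Z y)) := by
      have h1 : (fun x => Z' x * g (Z' x)) = fun x : ((Σ _ : α, ι) ⊕ ι) → Bool =>
          ((fun y => T y * ((1 - I y) * g (T y))) (fun k => x (Sum.inl k)) * (fun _ => (1:ℝ)) (fun k => x (Sum.inr k))
          + I (fun k => x (Sum.inl k)) * (fun y => (w + Z y) * g (w + Z y)) (fun k => x (Sum.inr k))) := by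
        ext x
        rw [hsplit (fun t => t * g t) x]
        ring
      have e1 := hev (fun y => T y * ((1 - I y) * g (T y))) I
        (fun _ => (1:ℝ)) (fun y => (w + Z y) * g (w + Z y))
      refine (congrArg ev h1).trans (e1.trans ?_)
      rw [ev_const, hEI]
      ring
    rw [hL, hR]
    have h7 : ev (fun y => (w + Z y) * g (w + Z y)) = w * ev (fun y => g (w + Z y))
        + ev (fun y => Z y * g (w + Z y)) := by
      have : (fun y => (w + Z y) * g (w + Z y)) = fun y => w * g (w + Z y) + Z y * g (w + Z y) := by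
        ext y; ring
      rw [this, ev_add, ev_smul]
    rw [h7, ← hPw]; ring
  · -- second moment
    set v : ℝ := ev (fun y => Z y ^ 2) with hv
    have h1 : ev (fun x => Z' x ^ 2) = ev (fun y => (1 - I y) * T y ^ 2) + P * (w ^ 2 + v) := by
      have h1 : (fun x => Z' x ^ 2) = fun x : ((Σ _ : α, ι) ⊕ ι) → Bool =>
          ((fun y => (1 - I y) * T y ^ 2) (fun k => x (Sum.inl k)) * (fun _ => (1:ℝ)) (fun k => x (Sum.inr k))
          + I (fun k => x (Sum.inl k)) * (fun y => (w + Z y) ^ 2) (fun k => x (Sum.inr k))) := by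
        ext x
        rw [hsplit (fun t => t ^ 2) x]
        ring
      have e1 := hev (fun y => (1 - I y) * T y ^ 2) I
        (fun _ => (1:ℝ)) (fun y => (w + Z y) ^ 2)
      refine (congrArg ev h1).trans (e1.trans ?_)
      rw [ev_const, hEI]
      have h2 : ev (fun y => (w + Z y) ^ 2) = w ^ 2 + v := by
        have : (fun y => (w + Z y) ^ 2) = fun y => (w ^ 2 + (2 * w) * Z y) + Z y ^ 2 := by
          ext y; ring
        rw [this, ev_add (fun y => w ^ 2 + (2 * w) * Z y) _, ev_add (fun _ => w ^ 2) _, ev_const, ev_smul, hZ0]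
        ring
      rw [h2]; ring
    have h2 : ev (fun y => (1 - I y) * T y ^ 2)
        = Fintype.card α * v - ev (fun y => I y * T y ^ 2) := by
      have h3 : (fun y => (1 - I y) * T y ^ 2) = fun y => T y ^ 2 + (-1) * (I y * T y ^ 2) := by
        ext y; ring
      rw [h3, ev_add, ev_smul]
      have h4 : ev (fun y => T y ^ 2) = Fintype.card α * v := ev_zsum_sq hZ0
      rw [h4]; ring
    have h3 : ev (fun x : (Σ _ : α, ι) → Bool => ind A (zv Z x) * (v - zsum Z x ^ 2))
        = v * P - ev (fun y => I y * T y ^ 2) := by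
      have h4 : (fun x : (Σ _ : α, ι) → Bool => ind A (zv Z x) * (v - zsum Z x ^ 2))
          = fun x => v * I x + (-1) * (I x * T x ^ 2) := by
        ext x; simp only [hI, hT]; ring
      rw [h4, ev_add, ev_smul, ev_smul, hEI]; ring
    have hP0 : 0 ≤ P := by
      rw [hP]; unfold ev
      exact div_nonneg (Finset.sum_nonneg fun x _ => ind_nonneg A _) (by positivity)
    rw [h1, h2, h3]
    nlinarith [mul_nonneg hP0 (sq_nonneg w)]

end Crest.Agent.R063

end
end

-- ▼ part R063/KGain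
section

/-!
# R063, MODULE 3: the gain of the event `A`

Index set `α = Option β`, `β = Option (Fin K)`: `none : α` is the free coordinate `x_j`,
`some b : α` the coordinates with thin cells.
-/

set_option autoImplicit false
set_option linter.unusedSectionVars false

open Finset

noncomputable section

namespace Crest.Agent.R063

/-! ### expectation of products with a squared sum -/

section Q

variable {ι : Type} [Fintype ι] [DecidableEq ι]

lemma ev_mono {F G : (ι → Bool) → ℝ} (h : ∀ x, F x ≤ G x) : ev F ≤ ev G := by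
  unfold ev
  exact div_le_div_of_nonneg_right (Finset.sum_le_sum fun x _ => h x) (by positivity)

lemma ev_nonneg {F : (ι → Bool) → ℝ} (h : ∀ x, 0 ≤ F x) : 0 ≤ ev F := by
  unfold ev
  exact div_nonneg (Finset.sum_nonneg fun x _ => h x) (by positivity)

lemma ev_sub (F G : (ι → Bool) → ℝ) : ev (fun x => F x - G x) = ev F - ev G := by
  unfold ev; rw [Finset.sum_sub_distrib, sub_div]

lemma ev_eq_zero {F : (ι → Bool) → ℝ} (h : ∀ x, 0 ≤ F x) (h0 : ev F = 0) : ∀ x, F x = 0 := by
  unfold ev at h0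
  rw [div_eq_zero_iff] at h0
  rcases h0 with h0 | h0
  · intro x
    exact (Finset.sum_eq_zero_iff_of_nonneg (fun x _ => h x)).mp h0 x (Finset.mem_univ x)
  · exact absurd h0 (by positivity)

/-- conditional mean under the weight `f` -/
def mn (Y : (ι → Bool) → ℝ) (f : (ι → Bool) → ℝ) : ℝ := ev (fun y => f y * Y y) / ev f
/-- conditional second moment under the weight `f` -/
def sc (Y : (ι → Bool) → ℝ) (f : (ι → Bool) → ℝ) : ℝ := ev (fun y => f y * Y y ^ 2) / ev f
/-- conditional variance under the weight `f` -/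
def vr (Y : (ι → Bool) → ℝ) (f : (ι → Bool) → ℝ) : ℝ := sc Y f - mn Y f ^ 2

lemma ev_shift (Y : (ι → Bool) → ℝ) (f : (ι → Bool) → ℝ) (hf : ev f ≠ 0) (c : ℝ) :
    ev (fun y => f y * (Y y + c) ^ 2) = ev f * (vr Y f + (mn Y f + c) ^ 2) := by
  have h1 : (fun y => f y * (Y y + c) ^ 2) =
      fun y => (f y * Y y ^ 2 + (2 * c) * (f y * Y y)) + c ^ 2 * f y := by
    funext y; ring
  have h2 : ev (fun y => f y * Y y ^ 2) = ev f * sc Y f := by
    unfold sc; field_simp
  have h3 : ev (fun y => f y * Y y) = ev f * mn Y f := by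
    unfold mn; field_simp
  rw [h1, ev_add, ev_add, ev_smul, ev_smul, h2, h3]
  unfold vr
  ring

lemma vr_nonneg (Y : (ι → Bool) → ℝ) (f : (ι → Bool) → ℝ) (hf : 0 < ev f) (h0 : ∀ y, 0 ≤ f y) :
    0 ≤ vr Y f := by
  have h1 := ev_shift Y f hf.ne' (-mn Y f)
  have h2 : 0 ≤ ev (fun y => f y * (Y y + -mn Y f) ^ 2) :=
    ev_nonneg fun y => mul_nonneg (h0 y) (sq_nonneg _)
  rw [h1] at h2
  have h3 : mn Y f + -mn Y f = 0 := by ring
  rw [h3] at h2
  have h4 : 0 ≤ ev f * vr Y f := by nlinarith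
  exact nonneg_of_mul_nonneg_right h4 hf

lemma vr_le (Y : (ι → Bool) → ℝ) (f : (ι → Bool) → ℝ) (hf : 0 < ev f) (h0 : ∀ y, 0 ≤ f y)
    (c r : ℝ) (hr : ∀ y, f y ≠ 0 → |Y y - c| ≤ r) : vr Y f ≤ r ^ 2 := by
  have h1 := ev_shift Y f hf.ne' (-c)
  have h2 : ev (fun y => f y * (Y y + -c) ^ 2) ≤ ev (fun y => r ^ 2 * f y) := by
    refine ev_mono fun y => ?_
    by_cases hy : f y = 0
    · rw [hy]; simp
    · have h3 := hr y hy
      have h4 : (Y y + -c) ^ 2 ≤ r ^ 2 := by
        have h5 : Y y + -c = Y y - c := by ring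
        rw [h5, ← sq_abs]
        exact pow_le_pow_left₀ (abs_nonneg _) h3 2
      have h6 := h0 y
      nlinarith
  rw [h1, ev_smul] at h2
  have h5 : vr Y f + (mn Y f + -c) ^ 2 ≤ r ^ 2 := by
    have : ev f * (vr Y f + (mn Y f + -c) ^ 2) ≤ ev f * r ^ 2 := by linarith
    exact le_of_mul_le_mul_left this hf
  nlinarith [sq_nonneg (mn Y f + -c)]

lemma mn_mem (Y : (ι → Bool) → ℝ) (f : (ι → Bool) → ℝ) (hf : 0 < ev f) (h0 : ∀ y, 0 ≤ f y)
    (a b : ℝ) (hr : ∀ y, f y ≠ 0 → a ≤ Y y ∧ Y y ≤ b) : a ≤ mn Y f ∧ mn Y f ≤ b := by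
  constructor
  · unfold mn
    rw [le_div_iff₀ hf, ← ev_smul]
    refine ev_mono fun y => ?_
    by_cases hy : f y = 0
    · rw [hy]; simp
    · have h3 := (hr y hy).1
      have h6 := h0 y
      nlinarith
  · unfold mn
    rw [div_le_iff₀ hf, ← ev_smul]
    refine ev_mono fun y => ?_
    by_cases hy : f y = 0
    · rw [hy]; simp
    · have h3 := (hr y hy).2
      have h6 := h0 y
      nlinarith

variable {α : Type} [Fintype α] [DecidableEq α]

theorem ev_prod_sq (Y : (ι → Bool) → ℝ) (f : α → (ι → Bool) → ℝ) (hf : ∀ a, ev (f a) ≠ 0) :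
    ev (fun x : (Σ _ : α, ι) → Bool =>
      (∏ a, f a (fun k => x ⟨a, k⟩)) * (1 - zsum Y x ^ 2))
      = (∏ a, ev (f a)) * (1 - ∑ a, vr Y (f a) - (∑ a, mn Y (f a)) ^ 2) := by
  -- the diagonal and off-diagonal products
  have key : ∀ a a' : α, ev (fun x : (Σ _ : α, ι) → Bool =>
      (∏ c, f c (fun k => x ⟨c, k⟩)) * (zv Y x a * zv Y x a')) =
      (∏ c, ev (f c)) * (mn Y (f a) * mn Y (f a') + if a = a' then vr Y (f a) else 0) := by
    intro a a'
    set φ : α → (ι → Bool) → ℝ := fun c y =>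
      f c y * ((if c = a then Y y else 1) * (if c = a' then Y y else 1)) with hφ
    have h1 : (fun x : (Σ _ : α, ι) → Bool =>
        (∏ c, f c (fun k => x ⟨c, k⟩)) * (zv Y x a * zv Y x a')) =
        fun x => ∏ c, φ c (fun k => x ⟨c, k⟩) := by
      funext x
      simp only [hφ]
      rw [Finset.prod_mul_distrib, Finset.prod_mul_distrib]
      rw [Finset.prod_ite_eq' Finset.univ a (fun c => Y (fun k => x ⟨c, k⟩)),
        Finset.prod_ite_eq' Finset.univ a' (fun c => Y (fun k => x ⟨c, k⟩))]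
      simp [zv]
    rw [h1, ev_prod φ]
    have h2 : ∀ c, ev (φ c) = ev (f c) * ((if c = a then (if c = a' then sc Y (f c) else mn Y (f c))
        else (if c = a' then mn Y (f c) else 1))) := by
      intro c
      simp only [hφ]
      by_cases hca : c = a
      · by_cases hca' : c = a'
        · simp only [hca, if_true]
          rw [← hca', hca]
          have : (fun y => f a y * (Y y * Y y)) = fun y => f a y * Y y ^ 2 := by
            funext y; ring
          rw [if_pos rfl]
          simp only [if_true]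
          rw [this]
          have h := hf a
          unfold sc; field_simp
        · simp only [if_pos hca, if_neg hca', mul_one]
          have h := hf c
          unfold mn; field_simp
      · by_cases hca' : c = a'
        · simp only [if_neg hca, if_pos hca', one_mul]
          have h := hf c
          unfold mn; field_simp
        · simp only [if_neg hca, if_neg hca', mul_one]
    rw [Finset.prod_congr rfl fun c _ => h2 c, Finset.prod_mul_distrib]
    congr 1
    by_cases haa : a = a'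
    · subst haa
      rw [if_pos rfl]
      have h3 : ∀ c, (if c = a then (if c = a then sc Y (f c) else mn Y (f c))
        else (if c = a then mn Y (f c) else 1)) = if c = a then sc Y (f c) else 1 := by
        intro c
        by_cases hca : c = a
        · simp [hca]
        · simp [hca]
      rw [Finset.prod_congr rfl fun c _ => h3 c, Finset.prod_ite_eq' Finset.univ a]
      simp only [Finset.mem_univ, if_true]
      unfold vr
      ring
    · rw [if_neg haa, add_zero]
      have h3 : ∀ c, (if c = a then (if c = a' then sc Y (f c) else mn Y (f c))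
        else (if c = a' then mn Y (f c) else 1)) =
          (if c = a then mn Y (f c) else 1) * (if c = a' then mn Y (f c) else 1) := by
        intro c
        by_cases hca : c = a
        · have : c ≠ a' := fun h => haa (hca ▸ h)
          simp [hca, haa]
        · simp [hca]
      rw [Finset.prod_congr rfl fun c _ => h3 c, Finset.prod_mul_distrib,
        Finset.prod_ite_eq' Finset.univ a, Finset.prod_ite_eq' Finset.univ a']
      simp
  have h0 : ev (fun x : (Σ _ : α, ι) → Bool => (∏ a, f a (fun k => x ⟨a, k⟩))) =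
      ∏ a, ev (f a) := ev_prod f
  have h1 : (fun x : (Σ _ : α, ι) → Bool =>
      (∏ a, f a (fun k => x ⟨a, k⟩)) * (1 - zsum Y x ^ 2)) = fun x =>
      (∏ a, f a (fun k => x ⟨a, k⟩)) - ∑ a, ∑ a', (∏ c, f c (fun k => x ⟨c, k⟩)) *
        (zv Y x a * zv Y x a') := by
    funext x
    unfold zsum
    rw [sq, Finset.sum_mul_sum, mul_sub, mul_one, Finset.mul_sum]
    congr 1
    refine Finset.sum_congr rfl fun a _ => ?_
    rw [Finset.mul_sum]
  rw [h1, ev_sub, h0, ev_sum]
  have h2 : ∀ a, ev (fun x : (Σ _ : α, ι) → Bool => ∑ a', (∏ c, f c (fun k => x ⟨c, k⟩)) *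
        (zv Y x a * zv Y x a')) = (∏ c, ev (f c)) * (mn Y (f a) * (∑ a', mn Y (f a')) + vr Y (f a)) := by
    intro a
    rw [ev_sum, Finset.sum_congr rfl fun a' _ => key a a', ← Finset.mul_sum]
    congr 1
    rw [Finset.sum_add_distrib, ← Finset.mul_sum, Finset.sum_ite_eq]
    simp
  rw [Finset.sum_congr rfl fun a _ => h2 a, ← Finset.mul_sum, Finset.sum_add_distrib,
    ← Finset.sum_mul]
  ring

end Q

/-! ### the event -/

section Event

variable {β : Type} [Fintype β] [DecidableEq β]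

/-- the event `A` -/
def evA (V I : β → Set ℝ) : Set (Option β → ℝ) :=
  {z | ∀ a, z none ∈ I a → (∀ b, b ≠ a → z (some b) ∈ V b) ∧ z (some a) ∉ V a}

lemma ind_mem {γ : Type} {A : Set γ} {z : γ} (h : z ∈ A) : ind A z = 1 := by
  unfold ind; exact Set.indicator_of_mem h _

lemma ind_notMem {γ : Type} {A : Set γ} {z : γ} (h : z ∉ A) : ind A z = 0 := by
  unfold ind; exact Set.indicator_of_notMem h _

lemma ind_nonneg_g {γ : Type} (A : Set γ) (z : γ) : 0 ≤ ind A z := by
  unfold ind; exact Set.indicator_nonneg (fun _ _ => zero_le_one) _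

lemma ind_evA (V I : β → Set ℝ) (hI : ∀ t, ∃! b, t ∈ I b) (z : Option β → ℝ) :
    ind (evA V I) z = (∑ a, ind (I a) (z none) *
      ∏ b, (if b = a then 1 else ind (V b) (z (some b)))) - ∏ b, ind (V b) (z (some b)) := by
  classical
  obtain ⟨a, ha, hu⟩ := hI (z none)
  have h1 : ∑ a', ind (I a') (z none) * ∏ b, (if b = a' then 1 else ind (V b) (z (some b))) =
      ∏ b, (if b = a then 1 else ind (V b) (z (some b))) := by
    rw [Finset.sum_eq_single a]
    · rw [ind_mem ha, one_mul]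
    · intro a' _ hne
      have : z none ∉ I a' := fun h => hne (hu a' h)
      rw [ind_notMem this, zero_mul]
    · intro h; exact absurd (Finset.mem_univ a) h
  rw [h1]
  by_cases hall : ∀ b, b ≠ a → z (some b) ∈ V b
  · have h2 : ∏ b, (if b = a then 1 else ind (V b) (z (some b))) = (1 : ℝ) := by
      refine Finset.prod_eq_one fun b _ => ?_
      split_ifs with hb
      · rfl
      · exact ind_mem (hall b hb)
    rw [h2]
    by_cases hva : z (some a) ∈ V a
    · have h3 : ∏ b, ind (V b) (z (some b)) = (1 : ℝ) := by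
        refine Finset.prod_eq_one fun b _ => ?_
        by_cases hb : b = a
        · rw [hb]; exact ind_mem hva
        · exact ind_mem (hall b hb)
      have h4 : z ∉ evA V I := fun h => (h a ha).2 hva
      rw [h3, ind_notMem h4]; ring
    · have h3 : ∏ b, ind (V b) (z (some b)) = (0 : ℝ) :=
        Finset.prod_eq_zero (Finset.mem_univ a) (ind_notMem hva)
      have h4 : z ∈ evA V I := by
        intro a' ha'
        have : a' = a := hu a' ha'
        subst this
        exact ⟨hall, hva⟩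
      rw [h3, ind_mem h4]; ring
  · push Not at hall
    obtain ⟨b, hb, hbV⟩ := hall
    have h2 : ∏ b, (if b = a then 1 else ind (V b) (z (some b))) = (0 : ℝ) := by
      refine Finset.prod_eq_zero (Finset.mem_univ b) ?_
      rw [if_neg hb]; exact ind_notMem hbV
    have h3 : ∏ b, ind (V b) (z (some b)) = (0 : ℝ) :=
      Finset.prod_eq_zero (Finset.mem_univ b) (ind_notMem hbV)
    have h4 : z ∉ evA V I := fun h => hbV ((h a ha).1 b hb)
    rw [h2, h3, ind_notMem h4]; ring

lemma junta_evA (V I : β → Set ℝ) (hI : ∀ t, ∃! b, t ∈ I b) : Junta (evA V I) := by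
  refine ⟨fun a z => match a with
    | none => - ∏ b, ind (V b) (z (some b))
    | some a => ind (I a) (z none) * ∏ b, (if b = a then 1 else ind (V b) (z (some b))), ?_, ?_⟩
  · intro a z z' h
    cases a with
    | none =>
      simp only
      congr 1
      refine Finset.prod_congr rfl fun b _ => ?_
      rw [h (some b) (by simp)]
    | some a =>
      simp only
      rw [h none (by simp)]
      congr 1
      refine Finset.prod_congr rfl fun b _ => ?_
      split_ifs with hb
      · rfl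
      · rw [h (some b) (by simpa using hb)]
  · intro z
    rw [Fintype.sum_option, ind_evA V I hI]
    ring

variable {ι : Type} [Fintype ι] [DecidableEq ι]

/-- indicator of `Y ∈ s` -/
def iv (Y : (ι → Bool) → ℝ) (s : Set ℝ) : (ι → Bool) → ℝ := fun y => ind s (Y y)

lemma iv_nonneg (Y : (ι → Bool) → ℝ) (s : Set ℝ) (y : ι → Bool) : 0 ≤ iv Y s y := ind_nonneg_g _ _

lemma iv_ne_zero {Y : (ι → Bool) → ℝ} {s : Set ℝ} {y : ι → Bool} (h : iv Y s y ≠ 0) : Y y ∈ s := by
  by_contra hn
  exact h (ind_notMem hn)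

lemma ev_iv (Y : (ι → Bool) → ℝ) (s : Set ℝ) : ev (iv Y s) = pr Y s := rfl

/-- the conditional mean of `Y` on `Y ∈ s` -/
def cm (Y : (ι → Bool) → ℝ) (s : Set ℝ) : ℝ := mn Y (iv Y s)
/-- the conditional variance of `Y` on `Y ∈ s` -/
def cv (Y : (ι → Bool) → ℝ) (s : Set ℝ) : ℝ := vr Y (iv Y s)

set_option maxHeartbeats 1000000 in
theorem gain_abs (V I : β → Set ℝ) (hI : ∀ t, ∃! b, t ∈ I b) (Y : (ι → Bool) → ℝ)
    (h0 : ev Y = 0) (h1 : ev (fun y => Y y ^ 2) = 1) (hp : ∀ b, 0 < pr Y (V b)) :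
    (∏ b, pr Y (V b)) * ((∑ b, cm Y (V b)) ^ 2 -
      ∑ a, (ev (fun y => iv Y (I a) y * (Y y + (∑ b, cm Y (V b) - cm Y (V a))) ^ 2) +
        pr Y (I a) * ∑ b, cv Y (V b)) / pr Y (V a)) ≤
    ev (fun x : (Σ _ : Option β, ι) → Bool => ind (evA V I) (zv Y x) * (1 - zsum Y x ^ 2)) := by
  set M := ∑ b, cm Y (V b) with hM
  set Vt := ∑ b, cv Y (V b) with hVt
  have hcv : ∀ b, 0 ≤ cv Y (V b) := fun b => vr_nonneg Y _ (hp b) (iv_nonneg Y _)
  have hVt0 : 0 ≤ Vt := Finset.sum_nonneg fun b _ => hcv b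
  -- decomposition
  set fU : Option β → (ι → Bool) → ℝ := fun c => match c with
    | none => fun _ => 1
    | some b => iv Y (V b) with hfU
  set fB : β → Option β → (ι → Bool) → ℝ := fun a c => match c with
    | none => iv Y (I a)
    | some b => if b = a then (fun _ => 1) else iv Y (V b) with hfB
  have hdec : (fun x : (Σ _ : Option β, ι) → Bool =>
      ind (evA V I) (zv Y x) * (1 - zsum Y x ^ 2)) = fun x =>
      (∑ a, (∏ c, fB a c (fun k => x ⟨c, k⟩)) * (1 - zsum Y x ^ 2)) -
        (∏ c, fU c (fun k => x ⟨c, k⟩)) * (1 - zsum Y x ^ 2) := by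
    funext x
    rw [ind_evA V I hI, sub_mul, Finset.sum_mul]
    congr 1
    · refine Finset.sum_congr rfl fun a _ => ?_
      congr 1
      rw [Fintype.prod_option]
      simp only [hfB]
      congr 1
      refine Finset.prod_congr rfl fun b _ => ?_
      split_ifs with hb
      · rfl
      · rfl
    · congr 1
      rw [Fintype.prod_option]
      simp only [hfU, one_mul]
      rfl
  rw [hdec, ev_sub, ev_sum]
  have h1m : ev (fun _ : ι → Bool => (1 : ℝ)) = 1 := ev_const 1
  have hmn1 : mn Y (fun _ => 1) = 0 := by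
    unfold mn
    rw [h1m]
    simp only [one_mul, div_one]
    exact h0
  have hvr1 : vr Y (fun _ => 1) = 1 := by
    unfold vr sc
    rw [hmn1, h1m]
    simp only [one_mul, div_one]
    rw [h1]; ring
  have hprod : 0 < ∏ b, pr Y (V b) := Finset.prod_pos fun b _ => hp b
  -- the term U
  have hU : ev (fun x : (Σ _ : Option β, ι) → Bool =>
      (∏ c, fU c (fun k => x ⟨c, k⟩)) * (1 - zsum Y x ^ 2)) =
      - ((∏ b, pr Y (V b)) * (Vt + M ^ 2)) := by
    rw [ev_prod_sq Y fU]
    · rw [Fintype.prod_option, Fintype.sum_option, Fintype.sum_option]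
      simp only [hfU, h1m, hmn1, hvr1, one_mul, zero_add]
      have e1 : ∑ b, vr Y (iv Y (V b)) = Vt := rfl
      have e2 : ∑ b, mn Y (iv Y (V b)) = M := rfl
      have e3 : ∏ b, ev (iv Y (V b)) = ∏ b, pr Y (V b) := rfl
      rw [e1, e2, e3]
      ring
    · intro c
      cases c with
      | none => simp only [hfU, h1m]; norm_num
      | some b => simp only [hfU]; exact (hp b).ne'
  -- the terms B
  have hB : ∀ a, - ((∏ b, pr Y (V b)) *
      ((ev (fun y => iv Y (I a) y * (Y y + (M - cm Y (V a))) ^ 2) +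
        pr Y (I a) * Vt) / pr Y (V a))) ≤
      ev (fun x : (Σ _ : Option β, ι) → Bool =>
        (∏ c, fB a c (fun k => x ⟨c, k⟩)) * (1 - zsum Y x ^ 2)) := by
    intro a
    have hq0 : 0 ≤ pr Y (I a) := ev_nonneg (iv_nonneg Y _)
    have hE0 : 0 ≤ ev (fun y => iv Y (I a) y * (Y y + (M - cm Y (V a))) ^ 2) :=
      ev_nonneg fun y => mul_nonneg (iv_nonneg Y _ y) (sq_nonneg _)
    by_cases hq : pr Y (I a) = 0
    · have h2 : ∀ y, iv Y (I a) y = 0 := ev_eq_zero (iv_nonneg Y _) hq
      have h3 : (fun x : (Σ _ : Option β, ι) → Bool =>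
          (∏ c, fB a c (fun k => x ⟨c, k⟩)) * (1 - zsum Y x ^ 2)) = fun _ => 0 := by
        funext x
        have : ∏ c, fB a c (fun k => x ⟨c, k⟩) = 0 := by
          refine Finset.prod_eq_zero (Finset.mem_univ none) ?_
          simp only [hfB]
          exact h2 _
        rw [this, zero_mul]
      rw [h3, ev_const]
      rw [neg_nonpos]
      have := hp a
      positivity
    · have hqp : 0 < pr Y (I a) := lt_of_le_of_ne hq0 (Ne.symm hq)
      rw [ev_prod_sq Y (fB a)]
      · rw [Fintype.prod_option, Fintype.sum_option, Fintype.sum_option]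
        have e1 : ∑ b, vr Y (fB a (some b)) = Vt - cv Y (V a) + 1 := by
          rw [hVt, ← Finset.add_sum_erase Finset.univ _ (Finset.mem_univ a),
            ← Finset.add_sum_erase Finset.univ (fun b => cv Y (V b)) (Finset.mem_univ a)]
          have e2 : vr Y (fB a (some a)) = 1 := by
            simp only [hfB, if_true]; exact hvr1
          have e3 : ∑ b ∈ Finset.univ.erase a, vr Y (fB a (some b)) =
              ∑ b ∈ Finset.univ.erase a, cv Y (V b) := by
            refine Finset.sum_congr rfl fun b hb => ?_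
            have hne : b ≠ a := (Finset.mem_erase.mp hb).1
            simp only [hfB, if_neg hne]
            rfl
          rw [e2, e3]; ring
        have e4 : ∑ b, mn Y (fB a (some b)) = M - cm Y (V a) := by
          rw [hM, ← Finset.add_sum_erase Finset.univ _ (Finset.mem_univ a),
            ← Finset.add_sum_erase Finset.univ (fun b => cm Y (V b)) (Finset.mem_univ a)]
          have e2 : mn Y (fB a (some a)) = 0 := by
            simp only [hfB, if_true]; exact hmn1
          have e3 : ∑ b ∈ Finset.univ.erase a, mn Y (fB a (some b)) =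
              ∑ b ∈ Finset.univ.erase a, cm Y (V b) := by
            refine Finset.sum_congr rfl fun b hb => ?_
            have hne : b ≠ a := (Finset.mem_erase.mp hb).1
            simp only [hfB, if_neg hne]
            rfl
          rw [e2, e3]; ring
        have e5 : pr Y (V a) * ∏ b, ev (fB a (some b)) = ∏ b, pr Y (V b) := by
          rw [← Finset.mul_prod_erase Finset.univ (fun b => ev (fB a (some b))) (Finset.mem_univ a),
            ← Finset.mul_prod_erase Finset.univ (fun b => pr Y (V b)) (Finset.mem_univ a)]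
          have e2 : ev (fB a (some a)) = 1 := by
            simp only [hfB, if_true]; exact h1m
          have e3 : ∏ b ∈ Finset.univ.erase a, ev (fB a (some b)) =
              ∏ b ∈ Finset.univ.erase a, pr Y (V b) := by
            refine Finset.prod_congr rfl fun b hb => ?_
            have hne : b ≠ a := (Finset.mem_erase.mp hb).1
            simp only [hfB, if_neg hne]
            rfl
          rw [e2, e3]; ring
        rw [e1, e4]
        have e6 : fB a none = iv Y (I a) := rfl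
        rw [e6, ev_iv]
        have e7 := ev_shift Y (iv Y (I a)) (by rw [ev_iv]; exact hqp.ne') (M - cm Y (V a))
        rw [ev_iv] at e7
        rw [e7]
        set P' := ∏ b, ev (fB a (some b)) with hP'
        have hpa := hp a
        have hP'0 : 0 < P' := by
          have : 0 < pr Y (V a) * P' := by rw [e5]; exact hprod
          exact (mul_pos_iff_of_pos_left hpa).mp this
        rw [← e5]
        have e8 : pr Y (V a) * P' * ((pr Y (I a) * (vr Y (iv Y (I a)) +
            (mn Y (iv Y (I a)) + (M - cm Y (V a))) ^ 2) + pr Y (I a) * Vt) / pr Y (V a)) =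
            P' * pr Y (I a) * (vr Y (iv Y (I a)) +
            (mn Y (iv Y (I a)) + (M - cm Y (V a))) ^ 2 + Vt) := by
          field_simp
        rw [e8]
        have h5 := hcv a
        have h6 : 0 ≤ P' * pr Y (I a) * cv Y (V a) := by positivity
        nlinarith
      · intro c
        cases c with
        | none => simp only [hfB]; exact hq
        | some b =>
          by_cases hb : b = a
          · simp only [hfB, if_pos hb, h1m]; norm_num
          · simp only [hfB, if_neg hb]; exact (hp b).ne'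
  rw [hU]
  have hsum : - ((∏ b, pr Y (V b)) * ∑ a, (ev (fun y => iv Y (I a) y *
      (Y y + (M - cm Y (V a))) ^ 2) + pr Y (I a) * Vt) / pr Y (V a)) ≤
      ∑ a, ev (fun x : (Σ _ : Option β, ι) → Bool =>
        (∏ c, fB a c (fun k => x ⟨c, k⟩)) * (1 - zsum Y x ^ 2)) := by
    rw [Finset.mul_sum, ← Finset.sum_neg_distrib]
    exact Finset.sum_le_sum fun a _ => hB a
  have h7 : 0 ≤ (∏ b, pr Y (V b)) * Vt := mul_nonneg hprod.le hVt0
  clear_value M Vt fU fB
  linarith

end Event

end Crest.Agent.R063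

end
end

-- ▼ part R063/KGain2
section

/-!
# R063, MODULE 3: the gain for the concrete parameters
-/

set_option autoImplicit false
set_option linter.unusedSectionVars false

open Finset

noncomputable section

namespace Crest.Agent.R063

/-- thin cells -/
def Vv (n : ℕ) (v0 : ℝ) : Option (Fin (KK n)) → Set ℝ
  | none => Set.Ico v0 (v0 + hh n)
  | some b => Vc n b

/-- partition -/
def Iv (n : ℕ) : Option (Fin (KK n)) → Set ℝ
  | none => (Int0 n)ᶜ
  | some b => Ic n b

section Par

variable {n : ℕ} (hn : 2 ≤ n)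

include hn

lemma npos : (0 : ℝ) < n := by
  have : 0 < n := by omega
  exact_mod_cast this

lemma hh_pos_g : 0 < hh n := by
  have := npos hn
  unfold hh; positivity

lemma hp_pos_g : 0 < hp n := by
  have := npos hn
  unfold hp; positivity

lemma tau_pos_g : 0 < tau n := by
  have := npos hn
  unfold tau; positivity

lemma tau_le : tau n ≤ 1 / 2 := by
  have : (2 : ℝ) ≤ n := by exact_mod_cast hn
  unfold tau
  exact one_div_le_one_div_of_le (by norm_num) this

lemma hh_eq : hh n = tau n ^ 9 := by unfold hh tau; rw [div_pow, one_pow]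
lemma hp_eq : hp n = tau n ^ 14 := by unfold hp tau; rw [div_pow, one_pow]

lemma KK_tau : (KK n : ℝ) * tau n ^ 10 = 2 := by
  have := npos hn
  unfold KK tau
  push_cast
  field_simp

lemma n_tau : (n : ℝ) * tau n = 1 := by
  have := npos hn
  unfold tau
  field_simp

lemma KK_hh : (KK n : ℝ) * hh n = 2 * n := by
  have := npos hn
  unfold KK hh
  push_cast
  field_simp

lemma mem_Ic (b : ℕ) (t : ℝ) :
    t ∈ Ic n b ↔ (b : ℝ) ≤ (t + n + tau n) / hh n ∧ (t + n + tau n) / hh n < b + 1 := by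
  have hh0 := hh_pos_g hn
  rw [le_div_iff₀ hh0, div_lt_iff₀ hh0]
  unfold Ic cc
  rw [Set.mem_Ico]
  constructor
  · rintro ⟨h1, h2⟩
    constructor <;> nlinarith
  · rintro ⟨h1, h2⟩
    constructor <;> nlinarith

lemma mem_Int0 (t : ℝ) :
    t ∈ Int0 n ↔ 0 ≤ (t + n + tau n) / hh n ∧ (t + n + tau n) / hh n < KK n := by
  have hh0 := hh_pos_g hn
  have h3 := KK_hh hn
  rw [le_div_iff₀ hh0, div_lt_iff₀ hh0, h3]
  unfold Int0
  rw [Set.mem_Ico]
  constructor
  · rintro ⟨h1, h2⟩
    constructor <;> nlinarith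
  · rintro ⟨h1, h2⟩
    constructor <;> nlinarith

lemma Iv_part (t : ℝ) : ∃! b, t ∈ Iv n b := by
  by_cases ht : t ∈ Int0 n
  · have h1 := (mem_Int0 hn t).mp ht
    set s := (t + n + tau n) / hh n with hs
    have h2 : ⌊s⌋₊ < KK n := (Nat.floor_lt h1.1).mpr h1.2
    refine ⟨some ⟨⌊s⌋₊, h2⟩, ?_, ?_⟩
    · change t ∈ Ic n ⌊s⌋₊
      rw [mem_Ic hn]
      exact ⟨Nat.floor_le h1.1, Nat.lt_floor_add_one s⟩
    · intro b hb
      cases b with
      | none => exact absurd ht hb
      | some b =>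
        have hb' : t ∈ Ic n b := hb
        rw [mem_Ic hn] at hb'
        have h3 : ⌊s⌋₊ = (b : ℕ) := by
          rw [Nat.floor_eq_iff h1.1]
          exact hb'
        congr 1
        exact Fin.ext h3.symm
  · refine ⟨none, ht, ?_⟩
    intro b hb
    cases b with
    | none => rfl
    | some b =>
      exfalso
      have hb' : t ∈ Ic n b := hb
      rw [mem_Ic hn] at hb'
      apply ht
      rw [mem_Int0 hn]
      have h4 : ((b : ℕ) : ℝ) + 1 ≤ KK n := by exact_mod_cast b.2
      exact ⟨le_trans (by positivity) hb'.1, lt_of_lt_of_le hb'.2 h4⟩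

lemma sum_cc : ∑ b : Fin (KK n), cc n b = 0 := by
  have h1 : ∀ K : ℕ, ∑ b : Fin K, cc n b = -(n : ℝ) * K + hh n * (K : ℝ) ^ 2 / 2 := by
    intro K
    induction K with
    | zero => simp
    | succ K ih =>
      rw [Fin.sum_univ_castSucc]
      simp only [Fin.val_castSucc, Fin.val_last]
      rw [ih]
      unfold cc
      push_cast
      ring
  rw [h1]
  have h2 := KK_hh hn
  have : hh n * (KK n : ℝ) ^ 2 / 2 = ((KK n : ℝ) * hh n) * KK n / 2 := by ring
  rw [this, h2]
  ring

end Par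

section Main

variable {ι : Type} [Fintype ι] [DecidableEq ι]

lemma pr_mono (Y : (ι → Bool) → ℝ) {s t : Set ℝ} (h : s ⊆ t) : pr Y s ≤ pr Y t := by
  refine ev_mono fun y => ?_
  by_cases hy : Y y ∈ s
  · rw [ind_mem hy, ind_mem (h hy)]
  · rw [ind_notMem hy]; exact ind_nonneg_g _ _

lemma cm_mem (Y : (ι → Bool) → ℝ) {a b : ℝ} (hp : 0 < pr Y (Set.Ico a b)) :
    a ≤ cm Y (Set.Ico a b) ∧ cm Y (Set.Ico a b) ≤ b :=
  mn_mem Y _ hp (iv_nonneg Y _) a b fun _ hy => ⟨(iv_ne_zero hy).1, (iv_ne_zero hy).2.le⟩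

lemma cv_le (Y : (ι → Bool) → ℝ) {a b : ℝ} (hp : 0 < pr Y (Set.Ico a b)) :
    cv Y (Set.Ico a b) ≤ ((b - a) / 2) ^ 2 := by
  refine vr_le Y _ hp (iv_nonneg Y _) ((a + b) / 2) ((b - a) / 2) fun y hy => ?_
  have h := iv_ne_zero hy
  rw [abs_le]
  constructor <;> [have := h.1; have := h.2] <;> linarith

set_option maxHeartbeats 4000000 in
theorem gain_conc {n : ℕ} (hn : 2 ≤ n) {C δ : ℝ} (hδ : 0 < δ) (hC : 0 < C)
    (hnC : (820 + 1000 * C) * tau n ≤ 1)
    (Y : (ι → Bool) → ℝ) (hY : Nice n C δ Y) :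
    ∃ A : Set (Option (Option (Fin (KK n))) → ℝ), Junta A ∧
      hh n / 100 * δ ^ (KK n) * (tau n ^ 2 / 2) ≤
        ev (fun x : (Σ _ : Option (Option (Fin (KK n))), ι) → Bool =>
          ind A (zv Y x) * (1 - zsum Y x ^ 2)) := by
  have hn0 := npos hn
  have hh0 := hh_pos_g hn
  have hp0 := hp_pos_g hn
  have ht0 := tau_pos_g hn
  have ht2 := tau_le hn
  set x := tau n with hx
  have hhx : hh n = x ^ 9 := hh_eq hn
  have hpx : hp n = x ^ 14 := hp_eq hn
  have hKx : (KK n : ℝ) * x ^ 10 = 2 := KK_tau hn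
  have hnx : (n : ℝ) * x = 1 := n_tau hn
  -- probabilities and means of thin cells
  have hpV : ∀ b : Fin (KK n), 0 < pr Y (Vc n b) := fun b => lt_of_lt_of_le hδ (hY.V_pos b b.2)
  have hmV : ∀ b : Fin (KK n), cc n b - hp n / 2 ≤ cm Y (Vc n b) ∧
      cm Y (Vc n b) ≤ cc n b + hp n / 2 := fun b => cm_mem Y (hpV b)
  set η := ∑ b : Fin (KK n), cm Y (Vc n b) with hη
  have hη1 : |η| ≤ x ^ 4 := by
    have h1 : η = ∑ b : Fin (KK n), (cm Y (Vc n b) - cc n b) := by
      rw [Finset.sum_sub_distrib, sum_cc hn, sub_zero]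
    rw [h1]
    calc |∑ b : Fin (KK n), (cm Y (Vc n b) - cc n b)|
        ≤ ∑ b : Fin (KK n), |cm Y (Vc n b) - cc n b| := Finset.abs_sum_le_sum_abs _ _
      _ ≤ ∑ _b : Fin (KK n), hp n / 2 := by
          refine Finset.sum_le_sum fun b _ => ?_
          have := hmV b
          rw [abs_le]; constructor <;> linarith
      _ = x ^ 4 := by
          rw [Finset.sum_const, Finset.card_univ, Fintype.card_fin, nsmul_eq_mul, hpx]
          have : (KK n : ℝ) * (x ^ 14 / 2) = ((KK n : ℝ) * x ^ 10) * x ^ 4 / 2 := by ring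
          rw [this, hKx]; ring
  have hx4 : x ^ 4 ≤ 1 / 16 := by
    calc x ^ 4 ≤ (1 / 2) ^ 4 := pow_le_pow_left₀ ht0.le ht2 4
      _ = 1 / 16 := by norm_num
  have hx9 : x ^ 9 ≤ 1 / 16 := by
    calc x ^ 9 ≤ (1 / 2) ^ 9 := pow_le_pow_left₀ ht0.le ht2 9
      _ ≤ 1 / 16 := by norm_num
  set v0 := x - η with hv0
  -- probability of the last cell
  have hpK : x ^ 9 / 100 ≤ pr Y (Set.Ico v0 (v0 + hh n)) := by
    set i : ℤ := ⌈v0 / (hh n / 2)⌉ with hi
    have hh2 : 0 < hh n / 2 := by positivity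
    have h1 : v0 ≤ (i : ℝ) * (hh n / 2) := by
      rw [← div_le_iff₀ hh2]; exact Int.le_ceil _
    have h2 : (i : ℝ) * (hh n / 2) < v0 + hh n / 2 := by
      have h3 : (i : ℝ) < v0 / (hh n / 2) + 1 := Int.ceil_lt_add_one _
      calc (i : ℝ) * (hh n / 2) < (v0 / (hh n / 2) + 1) * (hh n / 2) :=
            mul_lt_mul_of_pos_right h3 hh2
        _ = v0 + hh n / 2 := by field_simp
    have hη2 := abs_le.mp hη1
    have h4 : |(i : ℝ) * (hh n / 2)| ≤ 2 := by
      rw [abs_le]
      rw [hhx] at h2 h1 ⊢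
      constructor <;> linarith [hη2.1, hη2.2]
    have h5 := hY.G_le i h4
    rw [← hhx]
    refine h5.trans (pr_mono Y ?_)
    intro t ht
    unfold Gc at ht
    rw [Set.mem_Ico] at ht ⊢
    constructor
    · linarith [ht.1]
    · have h6 : ((i : ℝ) + 1) * (hh n / 2) = (i : ℝ) * (hh n / 2) + hh n / 2 := by ring
      linarith [ht.2]
  have hpK0 : 0 < pr Y (Set.Ico v0 (v0 + hh n)) := lt_of_lt_of_le (by positivity) hpK
  have hmK := cm_mem Y hpK0
  have hvK := cv_le Y hpK0
  have hpall : ∀ b, 0 < pr Y (Vv n v0 b) := by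
    intro b
    cases b with
    | none => exact hpK0
    | some b => exact hpV b
  have hmain := gain_abs (Vv n v0) (Iv n) (Iv_part hn) Y hY.mean hY.var hpall
  refine ⟨evA (Vv n v0) (Iv n), junta_evA _ _ (Iv_part hn), le_trans ?_ hmain⟩
  clear hmain
  set mK := cm Y (Set.Ico v0 (v0 + hh n)) with hmKd
  have hM : ∑ b, cm Y (Vv n v0 b) = mK + η := by
    rw [Fintype.sum_option]; rfl
  rw [hM]
  set Vt := ∑ b, cv Y (Vv n v0 b) with hVt
  have hVt0 : 0 ≤ Vt := Finset.sum_nonneg fun b _ => vr_nonneg Y _ (hpall b) (iv_nonneg Y _)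
  have hVt1 : Vt ≤ 3 / 4 * x ^ 18 := by
    rw [hVt, Fintype.sum_option]
    have h1 : cv Y (Vv n v0 none) ≤ x ^ 18 / 4 := by
      refine hvK.trans ?_
      rw [hhx]
      apply le_of_eq
      ring
    have h2 : ∑ b : Fin (KK n), cv Y (Vv n v0 (some b)) ≤ x ^ 18 / 2 := by
      calc ∑ b : Fin (KK n), cv Y (Vv n v0 (some b)) ≤ ∑ _b : Fin (KK n), (hp n / 2) ^ 2 := by
            refine Finset.sum_le_sum fun b _ => ?_
            refine (cv_le Y (hpV b)).trans (le_of_eq ?_)
            ring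
        _ = x ^ 18 / 2 := by
            rw [Finset.sum_const, Finset.card_univ, Fintype.card_fin, nsmul_eq_mul, hpx]
            have : (KK n : ℝ) * (x ^ 14 / 2) ^ 2 = ((KK n : ℝ) * x ^ 10) * x ^ 18 / 4 := by ring
            rw [this, hKx]; ring
    linarith
  have hηl := (abs_le.mp hη1).1
  have hηr := (abs_le.mp hη1).2
  have hM1 : x ≤ mK + η := by
    have := hmK.1
    linarith
  have hM2 : mK + η ≤ x + x ^ 9 := by
    have := hmK.2
    rw [hhx] at this
    linarith
  -- the product of the probabilities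
  have hP : x ^ 9 / 100 * δ ^ (KK n) ≤ ∏ b, pr Y (Vv n v0 b) := by
    rw [Fintype.prod_option]
    refine mul_le_mul hpK ?_ (by positivity) hpK0.le
    calc δ ^ (KK n) = ∏ _b : Fin (KK n), δ := by
          rw [Finset.prod_const, Finset.card_univ, Fintype.card_fin]
      _ ≤ ∏ b : Fin (KK n), pr Y (Vv n v0 (some b)) :=
          Finset.prod_le_prod (fun _ _ => hδ.le) fun b _ => hY.V_pos b b.2
  -- the interior terms
  have hpow : ∀ k : ℕ, 0 < x ^ k := fun k => pow_pos ht0 k
  have hint : ∀ b : Fin (KK n), (ev (fun y => iv Y (Iv n (some b)) y *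
      (Y y + (mK + η - cm Y (Vv n v0 (some b)))) ^ 2) + pr Y (Iv n (some b)) * Vt) /
        pr Y (Vv n v0 (some b)) ≤ 205 * x ^ 13 := by
    intro b
    have h1 : ev (fun y => iv Y (Iv n (some b)) y *
      (Y y + (mK + η - cm Y (Vv n v0 (some b)))) ^ 2) ≤ 4 * x ^ 18 * pr Y (Ic n b) := by
      have : 4 * x ^ 18 * pr Y (Ic n b) = ev (fun y => (4 * x ^ 18) * iv Y (Ic n b) y) := by
        rw [ev_smul]; rfl
      rw [this]
      refine ev_mono fun y => ?_
      change iv Y (Ic n b) y * _ ≤ _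
      by_cases hy : iv Y (Ic n b) y = 0
      · rw [hy]; simp
      · have h2 := iv_ne_zero hy
        have h3 := iv_nonneg Y (Ic n b) y
        unfold Ic at h2
        rw [Set.mem_Ico] at h2
        have h4 := hmV b
        change cc n b - hp n / 2 ≤ cm Y (Vv n v0 (some b)) ∧
          cm Y (Vv n v0 (some b)) ≤ cc n b + hp n / 2 at h4
        have h5 : |Y y + (mK + η - cm Y (Vv n v0 (some b)))| ≤ 2 * x ^ 9 := by
          have h6 : hp n ≤ x ^ 9 := by
            rw [hpx]
            exact pow_le_pow_of_le_one ht0.le (by linarith) (by norm_num)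
          rw [abs_le]
          rw [hhx] at h2
          constructor <;> linarith [h2.1, h2.2, h4.1, h4.2, hpow 9]
        have h7 : (Y y + (mK + η - cm Y (Vv n v0 (some b)))) ^ 2 ≤ 4 * x ^ 18 := by
          rw [← sq_abs]
          calc |Y y + (mK + η - cm Y (Vv n v0 (some b)))| ^ 2 ≤ (2 * x ^ 9) ^ 2 :=
                pow_le_pow_left₀ (abs_nonneg _) h5 2
            _ = 4 * x ^ 18 := by ring
        calc _ ≤ iv Y (Ic n b) y * (4 * x ^ 18) := mul_le_mul_of_nonneg_left h7 h3
          _ = _ := by ring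
    have hq0 : 0 ≤ pr Y (Ic n b) := ev_nonneg (iv_nonneg Y _)
    have h8 : pr Y (Iv n (some b)) * Vt ≤ pr Y (Ic n b) * (3 / 4 * x ^ 18) :=
      mul_le_mul_of_nonneg_left hVt1 hq0
    have h9 := hY.I_le b b.2
    have h10 : (n : ℝ) ^ 5 * x ^ 18 = x ^ 13 := by
      have : (n : ℝ) ^ 5 * x ^ 18 = ((n : ℝ) * x) ^ 5 * x ^ 13 := by ring
      rw [this, hnx]; ring
    have h11 : 0 < pr Y (Vv n v0 (some b)) := hpV b
    rw [div_le_iff₀ h11]
    change _ ≤ 205 * x ^ 13 * pr Y (Vc n b)
    calc _ ≤ 4 * x ^ 18 * pr Y (Ic n b) + pr Y (Ic n b) * (3 / 4 * x ^ 18) := add_le_add h1 h8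
      _ ≤ 5 * x ^ 18 * pr Y (Ic n b) := by nlinarith [mul_nonneg hq0 (hpow 18).le]
      _ ≤ 5 * x ^ 18 * (41 * (n : ℝ) ^ 5 * pr Y (Vc n b)) :=
          mul_le_mul_of_nonneg_left h9 (by positivity)
      _ = 205 * ((n : ℝ) ^ 5 * x ^ 18) * pr Y (Vc n b) := by ring
      _ = 205 * x ^ 13 * pr Y (Vc n b) := by rw [h10]
  -- the tail term
  have htail : (ev (fun y => iv Y (Iv n none) y *
      (Y y + (mK + η - cm Y (Vv n v0 none))) ^ 2) + pr Y (Iv n none) * Vt) /
        pr Y (Vv n v0 none) ≤ 500 * C * x ^ 3 := by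
    have hT := hY.tail
    set T := ev (fun y => (Int0 n)ᶜ.indicator (fun t => t ^ 2) (Y y)) with hTd
    have hout : ∀ t, t ∈ (Int0 n)ᶜ → 1 ≤ t ^ 2 := by
      intro t ht
      have h1 : ¬ (-(n : ℝ) - x ≤ t ∧ t < n - x) := ht
      have h2 : (2 : ℝ) ≤ n := by exact_mod_cast hn
      by_cases h3 : -(n : ℝ) - x ≤ t
      · have h4 : (n : ℝ) - x ≤ t := by
          by_contra hc
          exact h1 ⟨h3, not_le.mp hc⟩
        nlinarith
      · push Not at h3
        nlinarith
    have h1 : ev (fun y => iv Y (Iv n none) y *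
      (Y y + (mK + η - cm Y (Vv n v0 none))) ^ 2) ≤ 4 * T := by
      rw [hTd, ← ev_smul]
      refine ev_mono fun y => ?_
      change iv Y (Int0 n)ᶜ y * _ ≤ _
      by_cases hy : Y y ∈ (Int0 n)ᶜ
      · have h2 : iv Y (Int0 n)ᶜ y = 1 := ind_mem hy
        rw [h2, Set.indicator_of_mem hy, one_mul]
        have h3 : mK + η - cm Y (Vv n v0 none) = η := by
          change mK + η - mK = η
          ring
        rw [h3]
        have h4 := hout _ hy
        have h5 : η ^ 2 ≤ 1 := by
          rw [← sq_abs]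
          have : |η| ≤ 1 := by linarith
          exact pow_le_one₀ (abs_nonneg _) this
        have h6 : 0 ≤ (Y y - η) ^ 2 := sq_nonneg _
        have h7 : (Y y + η) ^ 2 = 2 * Y y ^ 2 + 2 * η ^ 2 - (Y y - η) ^ 2 := by ring
        rw [h7]
        linarith
      · have h2 : iv Y (Int0 n)ᶜ y = 0 := ind_notMem hy
        rw [h2, Set.indicator_of_notMem hy]; simp
    have h2 : pr Y (Iv n none) * Vt ≤ T := by
      have h3 : pr Y (Iv n none) ≤ T := by
        rw [hTd]
        refine ev_mono fun y => ?_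
        change ind (Int0 n)ᶜ (Y y) ≤ _
        by_cases hy : Y y ∈ (Int0 n)ᶜ
        · rw [ind_mem hy, Set.indicator_of_mem hy]
          exact hout _ hy
        · rw [ind_notMem hy, Set.indicator_of_notMem hy]
      have h4 : 0 ≤ pr Y (Iv n none) := ev_nonneg (iv_nonneg Y _)
      have h5 : Vt ≤ 1 := by
        refine hVt1.trans ?_
        have : x ^ 18 ≤ 1 := pow_le_one₀ ht0.le (by linarith)
        linarith
      calc pr Y (Iv n none) * Vt ≤ pr Y (Iv n none) * 1 := mul_le_mul_of_nonneg_left h5 h4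
        _ ≤ T := by rw [mul_one]; exact h3
    have h6 : C / (n : ℝ) ^ 12 = C * x ^ 12 := by
      rw [hx]; unfold tau; field_simp
    rw [h6] at hT
    have h7 : 0 < pr Y (Vv n v0 none) := hpK0
    rw [div_le_iff₀ h7]
    calc _ ≤ 4 * T + T := add_le_add h1 h2
      _ ≤ 5 * (C * x ^ 12) := by linarith
      _ = 500 * C * x ^ 3 * (x ^ 9 / 100) := by ring
      _ ≤ 500 * C * x ^ 3 * pr Y (Vv n v0 none) :=
          mul_le_mul_of_nonneg_left hpK (by positivity)
  have hsum : ∑ a, (ev (fun y => iv Y (Iv n a) y *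
      (Y y + (mK + η - cm Y (Vv n v0 a))) ^ 2) + pr Y (Iv n a) * Vt) /
        pr Y (Vv n v0 a) ≤ (410 + 500 * C) * x ^ 3 := by
    rw [Fintype.sum_option]
    have h1 : ∑ b : Fin (KK n), (ev (fun y => iv Y (Iv n (some b)) y *
      (Y y + (mK + η - cm Y (Vv n v0 (some b)))) ^ 2) + pr Y (Iv n (some b)) * Vt) /
        pr Y (Vv n v0 (some b)) ≤ 410 * x ^ 3 := by
      calc _ ≤ ∑ _b : Fin (KK n), 205 * x ^ 13 := Finset.sum_le_sum fun b _ => hint b
        _ = 410 * x ^ 3 := by
          rw [Finset.sum_const, Finset.card_univ, Fintype.card_fin, nsmul_eq_mul]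
          have : (KK n : ℝ) * (205 * x ^ 13) = ((KK n : ℝ) * x ^ 10) * (205 * x ^ 3) := by ring
          rw [this, hKx]; ring
    linarith
  have hprodpos : 0 ≤ ∏ b, pr Y (Vv n v0 b) := (Finset.prod_pos fun b _ => hpall b).le
  calc hh n / 100 * δ ^ (KK n) * (x ^ 2 / 2) = (x ^ 9 / 100 * δ ^ (KK n)) * (x ^ 2 / 2) := by
        rw [hhx]
    _ ≤ (∏ b, pr Y (Vv n v0 b)) * (x ^ 2 / 2) :=
        mul_le_mul_of_nonneg_right hP (by positivity)
    _ ≤ _ := by
        refine mul_le_mul_of_nonneg_left ?_ hprodpos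
        have h1 : x ^ 2 ≤ (mK + η) ^ 2 := pow_le_pow_left₀ ht0.le hM1 2
        have h2 : (410 + 500 * C) * x ^ 3 ≤ x ^ 2 / 2 := by
          have : (410 + 500 * C) * x ^ 3 = ((820 + 1000 * C) * x) * (x ^ 2 / 2) := by ring
          rw [this]
          have h3 : 0 ≤ x ^ 2 / 2 := by positivity
          nlinarith
        linarith

end Main

/-- MODULE 3 -/
theorem gainStmt : GainStmt := by
  intro C hC
  obtain ⟨n, hn⟩ := exists_nat_ge (820 + 1000 * C)
  have hn2 : (2 : ℝ) ≤ n := by linarith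
  have hn2' : 2 ≤ n := by exact_mod_cast hn2
  refine ⟨n, hn2', fun δ hδ => ?_⟩
  have hh0 := hh_pos_g hn2'
  have ht0 := tau_pos_g hn2'
  refine ⟨hh n / 100 * δ ^ (KK n) * (tau n ^ 2 / 2), by positivity,
    Option (Option (Fin (KK n))), inferInstance, inferInstance, inferInstance, ?_⟩
  intro ι _ _ Y hY
  refine gain_conc hn2' hδ hC ?_ Y hY
  have h1 := n_tau hn2'
  calc (820 + 1000 * C) * tau n ≤ n * tau n := mul_le_mul_of_nonneg_right hn ht0.le
    _ = 1 := h1

end Crest.Agent.R063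

end
end

-- ▼ part R063/CLT
section

/-!
CLT bridge for row 63: for a finite probability space `Ω` (uniform), `Z : Ω → ℝ` centred with
second moment `J > 0`, the normalised sums `X_m = (∑ i, Z (ω i)) / √(m J)` on `Fin m → Ω`
converge weakly to the standard Gaussian.
-/

set_option autoImplicit false
set_option linter.unusedSectionVars false

open MeasureTheory ProbabilityTheory Filter Topology
open scoped BoundedContinuousFunction ENNReal

namespace Crest.Agent.R063.CLT

variable {Ω : Type*} [Fintype Ω] [Nonempty Ω]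

/-- uniform average -/
noncomputable def avg {Ω : Type*} [Fintype Ω] (f : Ω → ℝ) : ℝ := (∑ ω, f ω) / Fintype.card Ω

/-- normalised sum of `m` copies of `Z` -/
noncomputable def nsum (Z : Ω → ℝ) (J : ℝ) (m : ℕ) (ω : Fin m → Ω) : ℝ :=
  (∑ i, Z (ω i)) / Real.sqrt (m * J)

/-- the law of `f` under the uniform measure, as a measure on `ℝ` -/
noncomputable def law {Ω : Type*} [Fintype Ω] (f : Ω → ℝ) : Measure ℝ :=
  ∑ ω : Ω, ((Fintype.card Ω : ℝ≥0∞)⁻¹) • Measure.dirac (f ω)

instance {Ω : Type*} [Fintype Ω] [Nonempty Ω] (f : Ω → ℝ) : IsProbabilityMeasure (law f) := by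
  constructor
  simp only [law, Measure.coe_finsetSum, Finset.sum_apply, Measure.smul_apply, measure_univ,
    smul_eq_mul, mul_one, Finset.sum_const, Finset.card_univ, nsmul_eq_mul]
  exact ENNReal.mul_inv_cancel (by simp) (by simp)

instance {Ω : Type*} [Fintype Ω] (f : Ω → ℝ) : IsFiniteMeasure (law f) := by
  rcases isEmpty_or_nonempty Ω with h | h
  · constructor; simp [law]
  · infer_instance


theorem integral_law {E : Type*} [NormedAddCommGroup E] [NormedSpace ℝ E] [CompleteSpace E]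
    {Ω : Type*} [Fintype Ω] [Nonempty Ω]
    (f : Ω → ℝ) (g : ℝ → E) :
    ∫ x, g x ∂(law f) = (Fintype.card Ω : ℝ)⁻¹ • ∑ ω, g (f ω) := by
  unfold law
  rw [integral_finsetSum_measure]
  · simp [integral_smul_measure, Finset.smul_sum]
  intro ω _
  refine Integrable.smul_measure ?_ (by simp)
  exact integrable_dirac (by simp)

theorem avg_eq_integral (f : Ω → ℝ) (g : ℝ → ℝ) :
    avg (fun ω => g (f ω)) = ∫ x, g x ∂(law f) := by
  rw [integral_law, avg, smul_eq_mul, div_eq_inv_mul]

theorem charFun_law_nsum (Z : Ω → ℝ) (J : ℝ) (m : ℕ) (t : ℝ) :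
    charFun (law (nsum Z J m)) t =
      (charFun (law (fun ω => Z ω / Real.sqrt J)) ((Real.sqrt m)⁻¹ * t)) ^ m := by
  have key : ∀ (ω : Fin m → Ω),
      Complex.exp (t * (nsum Z J m ω : ℝ) * Complex.I) =
        ∏ i, Complex.exp ((((Real.sqrt m)⁻¹ * t : ℝ) : ℂ) * ((Z (ω i) / Real.sqrt J : ℝ) : ℂ) * Complex.I) := by
    intro ω
    rw [← Complex.exp_sum]
    congr 1
    rw [← Finset.sum_mul, ← Finset.mul_sum]
    congr 1
    rw [← Complex.ofReal_sum, ← Complex.ofReal_mul, ← Complex.ofReal_mul]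
    congr 1
    rw [nsum, ← Finset.sum_div, Real.sqrt_mul (by positivity)]
    ring
  rw [charFun_apply_real, charFun_apply_real, integral_law, integral_law]
  simp_rw [key]
  rw [Complex.real_smul, Complex.real_smul, mul_pow, Finset.sum_pow']
  congr 1
  simp

/-- the law of the normalised sum as a probability measure -/
noncomputable def lawP (f : Ω → ℝ) : ProbabilityMeasure ℝ := ⟨law f, inferInstance⟩

/-- the standard Gaussian as a probability measure -/
noncomputable def gaussP : ProbabilityMeasure ℝ := ⟨gaussianReal 0 1, inferInstance⟩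

theorem tendsto_lawP (Z : Ω → ℝ) (J : ℝ) (hJ : 0 < J) (h0 : avg Z = 0)
    (h2 : avg (fun ω => Z ω ^ 2) = J) :
    Tendsto (fun m : ℕ => (lawP (nsum Z J m) : ProbabilityMeasure ℝ)) atTop (𝓝 gaussP) := by
  refine ProbabilityMeasure.tendsto_iff_tendsto_charFun.2 fun t ↦ ?_
  have h := tendsto_charFun_inv_sqrt_mul_pow (P := law (fun ω => Z ω / Real.sqrt J))
    (X := fun x => x) (by fun_prop) ?_ ?_ t
  · simp only [Measure.map_id'] at h
    simp only [lawP, gaussP, ProbabilityMeasure.coe_mk]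
    simp_rw [charFun_law_nsum Z J]
    rw [charFun_gaussianReal]
    simpa [neg_div] using h
  · rw [← avg_eq_integral (fun ω => Z ω / Real.sqrt J) (fun x => x)]
    simp only [avg] at h0 ⊢
    rw [← Finset.sum_div, div_div, mul_comm, ← div_div, h0, zero_div]
  · change ∫ x : ℝ, x ^ 2 ∂_ = 1
    rw [← avg_eq_integral (fun ω => Z ω / Real.sqrt J) (fun x => x ^ 2)]
    simp only [avg] at h2 ⊢
    simp_rw [div_pow, Real.sq_sqrt hJ.le]
    rw [← Finset.sum_div, div_div, mul_comm, ← div_div, h2, div_self hJ.ne']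

theorem tendsto_avg_bcf (Z : Ω → ℝ) (J : ℝ) (hJ : 0 < J) (h0 : avg Z = 0)
    (h2 : avg (fun ω => Z ω ^ 2) = J) (g : ℝ →ᵇ ℝ) :
    Tendsto (fun m : ℕ => avg (fun ω => g (nsum Z J m ω))) atTop
      (𝓝 (∫ x, g x ∂(gaussianReal 0 1))) := by
  have h := (ProbabilityMeasure.tendsto_iff_forall_integral_tendsto.1
    (tendsto_lawP Z J hJ h0 h2)) g
  simp_rw [avg_eq_integral (nsum Z J _) g]
  exact h

theorem law_real_apply (f : Ω → ℝ) (s : Set ℝ) (hs : MeasurableSet s) [DecidablePred (· ∈ s)] :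
    (law f).real s = avg (fun ω => if f ω ∈ s then (1 : ℝ) else 0) := by
  have h := avg_eq_integral f (fun x => s.indicator (fun _ => (1 : ℝ)) x)
  rw [integral_indicator hs] at h
  simp only [integral_const, smul_eq_mul, mul_one, measureReal_restrict_apply_univ] at h
  rw [← h]
  congr 1
  funext ω
  simp [Set.indicator_apply]

/-- probabilities of sets with Gaussian-null frontier converge -/
theorem tendsto_avg_set (Z : Ω → ℝ) (J : ℝ) (hJ : 0 < J) (h0 : avg Z = 0)
    (h2 : avg (fun ω => Z ω ^ 2) = J) (s : Set ℝ) (hs : MeasurableSet s)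
    (hf : (gaussianReal 0 1) (frontier s) = 0) [DecidablePred (· ∈ s)] :
    Tendsto (fun m : ℕ => avg (fun ω => if nsum Z J m ω ∈ s then (1 : ℝ) else 0)) atTop
      (𝓝 ((gaussianReal 0 1).real s)) := by
  have h := ProbabilityMeasure.tendsto_measure_of_null_frontier_of_tendsto'
    (tendsto_lawP Z J hJ h0 h2) (E := s) hf
  simp_rw [← law_real_apply _ s hs]
  exact (ENNReal.tendsto_toReal (by simp)).comp h

theorem gaussian_countable {s : Set ℝ} (hs : s.Countable) : (gaussianReal 0 1) s = 0 := by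
  have := nullSingletonClass_gaussianReal (μ := 0) (v := 1) one_ne_zero
  exact hs.measure_zero _

theorem tendsto_avg_Ico (Z : Ω → ℝ) (J : ℝ) (hJ : 0 < J) (h0 : avg Z = 0)
    (h2 : avg (fun ω => Z ω ^ 2) = J) (a b : ℝ) :
    Tendsto (fun m : ℕ => avg (fun ω => if a ≤ nsum Z J m ω ∧ nsum Z J m ω < b then (1 : ℝ) else 0))
      atTop (𝓝 ((gaussianReal 0 1).real (Set.Ico a b))) := by
  classical
  have hf : (gaussianReal 0 1) (frontier (Set.Ico a b)) = 0 := by
    rcases lt_or_ge a b with h | h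
    · rw [frontier_Ico h]; exact gaussian_countable (Set.toFinite _).countable
    · rw [Set.Ico_eq_empty_of_le h]; simp
  have h := tendsto_avg_set Z J hJ h0 h2 (Set.Ico a b) measurableSet_Ico hf
  refine h.congr fun m => ?_
  congr 1


section moments

theorem avg_add (f g : Ω → ℝ) : avg (fun ω => f ω + g ω) = avg f + avg g := by
  simp [avg, Finset.sum_add_distrib, add_div]

theorem avg_mul_left (c : ℝ) (f : Ω → ℝ) : avg (fun ω => c * f ω) = c * avg f := by
  simp [avg, ← Finset.mul_sum, mul_div_assoc]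

theorem avg_const (c : ℝ) : avg (fun _ : Ω => c) = c := by
  simp [avg]

theorem avg_mono {f g : Ω → ℝ} (h : ∀ ω, f ω ≤ g ω) : avg f ≤ avg g := by
  unfold avg
  gcongr with ω
  exact h ω

theorem avg_succ {m : ℕ} (F : (Fin (m + 1) → Ω) → ℝ) :
    avg F = avg (fun a : Ω => avg (fun v : Fin m → Ω => F (Fin.cons a v))) := by
  unfold avg
  rw [← (Fin.consEquiv (fun _ : Fin (m + 1) => Ω)).sum_comp, Fintype.sum_prod_type]
  rw [← Finset.sum_div, div_div]
  congr 1
  simp [pow_succ]

theorem avg_sum (Z : Ω → ℝ) (h0 : avg Z = 0) (m : ℕ) :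
    avg (fun ω : Fin m → Ω => ∑ i, Z (ω i)) = 0 := by
  induction m with
  | zero => simp [avg]
  | succ m ih =>
    rw [avg_succ]
    simp only [Fin.sum_univ_succ, Fin.cons_zero, Fin.cons_succ]
    simp only [avg_add, avg_const, ih, h0, add_zero]

theorem avg_sum_sq (Z : Ω → ℝ) (J : ℝ) (h0 : avg Z = 0)
    (h2 : avg (fun ω => Z ω ^ 2) = J) (m : ℕ) :
    avg (fun ω : Fin m → Ω => (∑ i, Z (ω i)) ^ 2) = m * J := by
  induction m with
  | zero => simp [avg]
  | succ m ih =>
    rw [avg_succ]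
    simp only [Fin.sum_univ_succ, Fin.cons_zero, Fin.cons_succ]
    have : ∀ a : Ω, avg (fun v : Fin m → Ω => (Z a + ∑ i, Z (v i)) ^ 2) = Z a ^ 2 + m * J := by
      intro a
      have h : ∀ v : Fin m → Ω, (Z a + ∑ i, Z (v i)) ^ 2 =
          (Z a ^ 2 + (2 * Z a) * (∑ i, Z (v i))) + (∑ i, Z (v i)) ^ 2 := fun v => by ring
      simp_rw [h]
      rw [avg_add, avg_add, avg_const, avg_mul_left, avg_sum Z h0, ih]
      ring
    simp_rw [this]
    rw [avg_add, avg_const, h2]
    push_cast; ring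

/-- second moment of the normalised sum is `1` -/
theorem avg_nsum_sq (Z : Ω → ℝ) (J : ℝ) (hJ : 0 < J) (h0 : avg Z = 0)
    (h2 : avg (fun ω => Z ω ^ 2) = J) (m : ℕ) (hm : 0 < m) :
    avg (fun ω => nsum Z J m ω ^ 2) = 1 := by
  have hm' : (0 : ℝ) < m := by exact_mod_cast hm
  have h : ∀ ω : Fin m → Ω, nsum Z J m ω ^ 2 = (m * J)⁻¹ * (∑ i, Z (ω i)) ^ 2 := by
    intro ω
    rw [nsum, div_pow, Real.sq_sqrt (by positivity), div_eq_inv_mul]
  simp_rw [h]
  rw [avg_mul_left, avg_sum_sq Z J h0 h2, inv_mul_cancel₀ (by positivity)]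

/-- first moment of the normalised sum is `0` -/
theorem avg_nsum (Z : Ω → ℝ) (J : ℝ) (h0 : avg Z = 0) (m : ℕ) :
    avg (fun ω => nsum Z J m ω) = 0 := by
  have h : ∀ ω : Fin m → Ω, nsum Z J m ω = (Real.sqrt (m * J))⁻¹ * (∑ i, Z (ω i)) := by
    intro ω
    rw [nsum, div_eq_inv_mul]
  simp_rw [h]
  rw [avg_mul_left, avg_sum Z h0, mul_zero]

end moments

section gaussian

theorem integrable_sq_gaussian : Integrable (fun x : ℝ => x ^ 2) (gaussianReal 0 1) := by
  have h := (memLp_id_gaussianReal (μ := 0) (v := 1) 2).integrable_sq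
  simpa using h

theorem integral_sq_gaussian : ∫ x, x ^ 2 ∂(gaussianReal 0 1) = 1 := by
  have h := variance_id_gaussianReal (μ := 0) (v := 1)
  rw [variance_eq_integral (by fun_prop)] at h
  simpa using h

end gaussian

/-- cutoff function: `1` on `|x| ≤ R - 1`, `0` on `|x| ≥ R` -/
noncomputable def cut (R x : ℝ) : ℝ := max 0 (min 1 (R - |x|))

theorem cut_nonneg (R x : ℝ) : 0 ≤ cut R x := le_max_left _ _
theorem cut_le_one (R x : ℝ) : cut R x ≤ 1 := by
  unfold cut; exact max_le (by norm_num) (min_le_left _ _)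
theorem cut_eq_one {R x : ℝ} (h : |x| ≤ R - 1) : cut R x = 1 := by
  unfold cut; rw [min_eq_left (by linarith)]; norm_num
theorem cut_eq_zero {R x : ℝ} (h : R ≤ |x|) : cut R x = 0 := by
  unfold cut; rw [max_eq_left]; exact (min_le_right _ _).trans (by linarith)
theorem continuous_cut (R : ℝ) : Continuous (cut R) := by
  unfold cut; fun_prop

/-- `x ↦ x² cut R x` as a bounded continuous function -/
noncomputable def sqcut (R : ℝ) (_hR : 0 ≤ R) : ℝ →ᵇ ℝ :=
  BoundedContinuousFunction.ofNormedAddCommGroup (fun x => x ^ 2 * cut R x)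
    (by have := continuous_cut R; fun_prop) (R ^ 2) (by
      intro x
      rw [Real.norm_eq_abs, abs_of_nonneg (mul_nonneg (sq_nonneg x) (cut_nonneg R x))]
      rcases le_or_gt R |x| with h | h
      · rw [cut_eq_zero h, mul_zero]; positivity
      · have h1 : x ^ 2 ≤ R ^ 2 := by
          rw [← sq_abs x]; exact pow_le_pow_left₀ (abs_nonneg x) h.le 2
        calc x ^ 2 * cut R x ≤ x ^ 2 * 1 := by gcongr; exact cut_le_one R x
          _ ≤ R ^ 2 := by linarith)

/-- tail of the second moment -/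
theorem eventually_tail (Z : Ω → ℝ) (J : ℝ) (hJ : 0 < J) (h0 : avg Z = 0)
    (h2 : avg (fun ω => Z ω ^ 2) = J) (R : ℝ) (hR0 : 0 ≤ R) (ε : ℝ) (hε : 0 < ε) :
    ∀ᶠ m : ℕ in atTop, avg (fun ω => if R ≤ |nsum Z J m ω| then nsum Z J m ω ^ 2 else 0) ≤
      (∫ x in {x : ℝ | R - 1 ≤ |x|}, x ^ 2 ∂(gaussianReal 0 1)) + ε := by
  have h := tendsto_avg_bcf Z J hJ h0 h2 (sqcut R hR0)
  have hms : MeasurableSet {x : ℝ | R - 1 ≤ |x|} := by measurability
  have hlow : 1 - (∫ x in {x : ℝ | R - 1 ≤ |x|}, x ^ 2 ∂(gaussianReal 0 1)) ≤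
      ∫ x, sqcut R hR0 x ∂(gaussianReal 0 1) := by
    have e1 : 1 - (∫ x in {x : ℝ | R - 1 ≤ |x|}, x ^ 2 ∂(gaussianReal 0 1)) =
        ∫ x : ℝ, x ^ 2 - Set.indicator {x : ℝ | R - 1 ≤ |x|} (fun x => x ^ 2) x ∂(gaussianReal 0 1) := by
      rw [integral_sub integrable_sq_gaussian (integrable_sq_gaussian.indicator hms),
        integral_sq_gaussian, integral_indicator hms]
    rw [e1]
    refine integral_mono (integrable_sq_gaussian.sub (integrable_sq_gaussian.indicator hms))
      ((sqcut R hR0).integrable _) fun x => ?_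
    change x ^ 2 - Set.indicator {x : ℝ | R - 1 ≤ |x|} (fun x => x ^ 2) x ≤ x ^ 2 * cut R x
    by_cases hx : R - 1 ≤ |x|
    · rw [Set.indicator_of_mem (show x ∈ {x : ℝ | R - 1 ≤ |x|} from hx)]
      have := mul_nonneg (sq_nonneg x) (cut_nonneg R x)
      linarith
    · rw [Set.indicator_of_notMem (show x ∉ {x : ℝ | R - 1 ≤ |x|} from hx),
        cut_eq_one (by push Not at hx; exact hx.le)]
      linarith
  have h3 : ∀ᶠ m : ℕ in atTop, 1 - (∫ x in {x : ℝ | R - 1 ≤ |x|}, x ^ 2 ∂(gaussianReal 0 1)) - ε <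
      avg (fun ω => sqcut R hR0 (nsum Z J m ω)) := by
    refine h.eventually_const_lt ?_
    linarith
  filter_upwards [h3, eventually_gt_atTop 0] with m hm hm0
  have h4 : avg (fun ω => if R ≤ |nsum Z J m ω| then nsum Z J m ω ^ 2 else 0) +
      avg (fun ω => sqcut R hR0 (nsum Z J m ω)) ≤ 1 := by
    rw [← avg_nsum_sq Z J hJ h0 h2 m hm0, ← avg_add]
    refine avg_mono fun ω => ?_
    change (if R ≤ |nsum Z J m ω| then nsum Z J m ω ^ 2 else 0) +
      nsum Z J m ω ^ 2 * cut R (nsum Z J m ω) ≤ nsum Z J m ω ^ 2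
    split_ifs with hx
    · rw [cut_eq_zero hx]; linarith
    · have := mul_le_mul_of_nonneg_left (cut_le_one R (nsum Z J m ω)) (sq_nonneg (nsum Z J m ω))
      linarith
  linarith




end Crest.Agent.R063.CLT
end

-- ▼ part R063/KNice

/-!
# R063 MODULE 4: normalised sums of a gadget are `Nice` (central limit theorem + Gaussian estimates)
-/

set_option autoImplicit false
set_option linter.unusedSectionVars false

open MeasureTheory ProbabilityTheory Filter Topology

noncomputable section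

namespace Crest.Agent.R063

namespace NiceAux

abbrev γ : Measure ℝ := gaussianReal 0 1

/-- the density -/
def ph (x : ℝ) : ℝ := gaussianPDFReal 0 1 x

lemma ph_eq (x : ℝ) : ph x = (Real.sqrt (2 * Real.pi))⁻¹ * Real.exp (-(x ^ 2) / 2) := by
  simp [ph, gaussianPDFReal]

lemma ph_pos (x : ℝ) : 0 < ph x := gaussianPDFReal_pos 0 1 x one_ne_zero

lemma gamma_real (s : Set ℝ) : γ.real s = ∫ x in s, ph x := by
  rw [Measure.real, gaussianReal_apply_eq_integral 0 one_ne_zero s, ENNReal.toReal_ofReal]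
  · rfl
  · exact setIntegral_nonneg_of_ae (by
      filter_upwards with x using (gaussianPDFReal_nonneg 0 1 x))

lemma integrable_ph : Integrable ph := integrable_gaussianPDFReal 0 1

lemma gamma_Ico_le {a b M : ℝ} (hab : a ≤ b) (h : ∀ x ∈ Set.Ico a b, ph x ≤ M) :
    γ.real (Set.Ico a b) ≤ (b - a) * M := by
  rw [gamma_real]
  calc ∫ x in Set.Ico a b, ph x ≤ ∫ x in Set.Ico a b, M := by
        refine setIntegral_mono_on integrable_ph.integrableOn ?_ measurableSet_Ico h
        simp
    _ = (b - a) * M := by simp [hab]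

lemma le_gamma_Ico {a b M : ℝ} (hab : a ≤ b) (h : ∀ x ∈ Set.Ico a b, M ≤ ph x) :
    (b - a) * M ≤ γ.real (Set.Ico a b) := by
  rw [gamma_real]
  calc (b - a) * M = ∫ x in Set.Ico a b, M := by simp [hab]
    _ ≤ ∫ x in Set.Ico a b, ph x := by
        refine setIntegral_mono_on ?_ integrable_ph.integrableOn measurableSet_Ico h
        simp

/-- comparison of two intervals -/
lemma gamma_Ico_compare {a b c d K : ℝ} (hab : a ≤ b) (hcd : c ≤ d)
    (h : ∀ x ∈ Set.Ico a b, ∀ y ∈ Set.Ico c d, ph x ≤ K * ph y) :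
    (d - c) * γ.real (Set.Ico a b) ≤ (b - a) * K * γ.real (Set.Ico c d) := by
  have h1 : ∀ y ∈ Set.Ico c d, γ.real (Set.Ico a b) ≤ (b - a) * K * ph y := by
    intro y hy
    have := gamma_Ico_le hab (fun x hx => h x hx y hy)
    linarith
  rw [gamma_real (Set.Ico c d)]
  calc (d - c) * γ.real (Set.Ico a b) = ∫ y in Set.Ico c d, γ.real (Set.Ico a b) := by simp [hcd]
    _ ≤ ∫ y in Set.Ico c d, (b - a) * K * ph y := by
        refine setIntegral_mono_on ?_ (integrable_ph.integrableOn.const_mul _) measurableSet_Ico h1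
        simp
    _ = (b - a) * K * ∫ y in Set.Ico c d, ph y := by
        rw [integral_const_mul]

lemma ph_compare {x y E : ℝ} (h : y ^ 2 - x ^ 2 ≤ 2 * E) : ph x ≤ Real.exp E * ph y := by
  rw [ph_eq, ph_eq]
  have h1 : Real.exp (-(x ^ 2) / 2) ≤ Real.exp E * Real.exp (-(y ^ 2) / 2) := by
    rw [← Real.exp_add]
    apply Real.exp_le_exp.2
    linarith
  have h2 : 0 ≤ (Real.sqrt (2 * Real.pi))⁻¹ := by positivity
  calc (Real.sqrt (2 * Real.pi))⁻¹ * Real.exp (-(x ^ 2) / 2)
      ≤ (Real.sqrt (2 * Real.pi))⁻¹ * (Real.exp E * Real.exp (-(y ^ 2) / 2)) := by gcongr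
    _ = _ := by ring

lemma exp_three_le : Real.exp 3 ≤ 21 := by
  have h : Real.exp 3 = Real.exp 1 ^ 3 := by rw [← Real.exp_nat_mul]; norm_num
  rw [h]
  calc Real.exp 1 ^ 3 ≤ (2.7182818286 : ℝ) ^ 3 := by
        gcongr; exact Real.exp_one_lt_d9.le
    _ ≤ 21 := by norm_num

/-- lower bound of the density on `|x| ≤ L` -/
lemma ph_lower {x L : ℝ} (h : |x| ≤ L) : ph L ≤ ph x := by
  rw [ph_eq, ph_eq]
  have h1 : x ^ 2 ≤ L ^ 2 := by
    rw [← sq_abs x]; exact pow_le_pow_left₀ (abs_nonneg x) h 2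
  gcongr

lemma ph_sqrt45 {x : ℝ} (h : x ^ 2 ≤ 9 / 2) : (3 / 100 : ℝ) ≤ ph x := by
  rw [ph_eq]
  have h1 : Real.sqrt (2 * Real.pi) ≤ 3 := by
    rw [Real.sqrt_le_left (by norm_num)]
    nlinarith [Real.pi_lt_four]
  have h1' : 0 < Real.sqrt (2 * Real.pi) := by positivity
  have h2 : (1 / 10 : ℝ) ≤ Real.exp (-(x ^ 2) / 2) := by
    have h3 : Real.exp (-(9 / 4 : ℝ)) ≤ Real.exp (-(x ^ 2) / 2) := by
      apply Real.exp_le_exp.2; linarith
    have h4 : Real.exp (9 / 4 : ℝ) ≤ 10 := by
      have h5 : Real.exp (9 / 4 : ℝ) ^ 4 ≤ 10 ^ 4 := by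
        rw [← Real.exp_nat_mul]
        have : ((4 : ℕ) : ℝ) * (9 / 4) = ((9 : ℕ) : ℝ) * 1 := by norm_num
        rw [this, Real.exp_nat_mul]
        calc Real.exp 1 ^ 9 ≤ (2.7182818286 : ℝ) ^ 9 := by
              gcongr; exact Real.exp_one_lt_d9.le
          _ ≤ 10 ^ 4 := by norm_num
      exact le_of_pow_le_pow_left₀ (by norm_num) (by norm_num) h5
    have h6 : (1 / 10 : ℝ) ≤ Real.exp (-(9 / 4 : ℝ)) := by
      rw [Real.exp_neg, one_div]
      exact inv_anti₀ (Real.exp_pos _) h4
    linarith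
  have h7 : (1 / 3 : ℝ) ≤ (Real.sqrt (2 * Real.pi))⁻¹ := by
    rw [one_div]; exact inv_anti₀ h1' h1
  calc (3 / 100 : ℝ) ≤ (1 / 3) * (1 / 10) := by norm_num
    _ ≤ (Real.sqrt (2 * Real.pi))⁻¹ * Real.exp (-(x ^ 2) / 2) := by gcongr

section params

variable {n : ℕ}

lemma n_pos (hn : 2 ≤ n) : (2 : ℝ) ≤ n := by exact_mod_cast hn

lemma hh_pos (hn : 2 ≤ n) : 0 < hh n := by have := n_pos hn; unfold hh; positivity
lemma hp_pos (hn : 2 ≤ n) : 0 < hp n := by have := n_pos hn; unfold hp; positivity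
lemma tau_pos (hn : 2 ≤ n) : 0 < tau n := by have := n_pos hn; unfold tau; positivity

lemma hh_le (hn : 2 ≤ n) : hh n ≤ 1 / n := by
  have h := n_pos hn
  unfold hh
  apply one_div_le_one_div_of_le (by linarith)
  calc (n : ℝ) = n ^ 1 := by ring
    _ ≤ n ^ 9 := pow_le_pow_right₀ (by linarith) (by norm_num)

lemma hp_le (hn : 2 ≤ n) : hp n ≤ 1 / n := by
  have h := n_pos hn
  unfold hp
  apply one_div_le_one_div_of_le (by linarith)
  calc (n : ℝ) = n ^ 1 := by ring
    _ ≤ n ^ 14 := pow_le_pow_right₀ (by linarith) (by norm_num)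

lemma abs_cc_le (hn : 2 ≤ n) {b : ℕ} (hb : b < KK n) : |cc n b| ≤ n := by
  have h := n_pos hn
  have hb' : (b : ℝ) + 1 ≤ 2 * (n : ℝ) ^ 10 := by
    unfold KK at hb
    exact_mod_cast hb
  have hp := hh_pos hn
  have e : (2 * (n : ℝ) ^ 10) * hh n = 2 * n := by
    unfold hh; field_simp
  have h1 : ((b : ℝ) + 1 / 2) * hh n ≤ 2 * n := by
    rw [← e]; gcongr; linarith
  have h2 : 0 ≤ ((b : ℝ) + 1 / 2) * hh n := by positivity
  unfold cc
  rw [abs_le]
  constructor <;> linarith

lemma V_lower (hn : 2 ≤ n) {b : ℕ} (hb : b < KK n) :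
    hp n * ph (n + 1) ≤ γ.real (Vc n b) := by
  have hc := abs_cc_le hn hb
  have hpp := hp_pos hn
  have hpl := hp_le hn
  have h2 := n_pos hn
  have h1n : (1 : ℝ) / n ≤ 1 / 2 := one_div_le_one_div_of_le (by norm_num) h2
  have h := le_gamma_Ico (a := cc n b - hp n / 2) (b := cc n b + hp n / 2) (M := ph (n + 1))
    (by linarith) (by
      rintro x ⟨hx1, hx2⟩
      apply ph_lower
      rw [abs_le] at hc ⊢
      constructor <;> linarith)
  have e : cc n b + hp n / 2 - (cc n b - hp n / 2) = hp n := by ring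
  rw [e] at h
  exact h

lemma V_pos' (hn : 2 ≤ n) {b : ℕ} (hb : b < KK n) : 0 < γ.real (Vc n b) :=
  lt_of_lt_of_le (mul_pos (hp_pos hn) (ph_pos _)) (V_lower hn hb)

lemma I_le' (hn : 2 ≤ n) {b : ℕ} (hb : b < KK n) :
    γ.real (Ic n b) ≤ 21 * (n : ℝ) ^ 5 * γ.real (Vc n b) := by
  have hc := abs_cc_le hn hb
  have hpp := hp_pos hn
  have hpl := hp_le hn
  have hhp := hh_pos hn
  have hhl := hh_le hn
  have h2 := n_pos hn
  have htp := tau_pos hn
  have h1n : (1 : ℝ) / n ≤ 1 / 2 := one_div_le_one_div_of_le (by norm_num) h2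
  have ht : tau n = 1 / n := rfl
  have h := gamma_Ico_compare (a := cc n b - tau n - hh n / 2) (b := cc n b - tau n + hh n / 2)
    (c := cc n b - hp n / 2) (d := cc n b + hp n / 2) (K := 21) (by linarith) (by linarith) (by
      rintro x ⟨hx1, hx2⟩ y ⟨hy1, hy2⟩
      have h6 : y ^ 2 - x ^ 2 ≤ 2 * 3 := by
        have e1 : y ^ 2 - x ^ 2 = (y - x) * (y + x) := by ring
        have e2 : |y - x| ≤ 2 / n := by
          have : (2 : ℝ) / n = 1 / n + 1 / n := by ring
          rw [this, abs_le]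
          constructor <;> linarith
        have e3 : |y + x| ≤ 3 * n := by
          rw [abs_le] at hc ⊢
          have : (1 : ℝ) / n ≤ n / 4 := by
            rw [div_le_div_iff₀ (by linarith) (by norm_num)]
            nlinarith
          constructor <;> linarith
        calc y ^ 2 - x ^ 2 = (y - x) * (y + x) := e1
          _ ≤ |(y - x) * (y + x)| := le_abs_self _
          _ = |y - x| * |y + x| := abs_mul _ _
          _ ≤ (2 / n) * (3 * n) := by gcongr
          _ = 2 * 3 := by field_simp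
      calc ph x ≤ Real.exp 3 * ph y := ph_compare h6
        _ ≤ 21 * ph y := by
          have := (ph_pos y).le
          gcongr
          exact exp_three_le)
  have e1 : cc n b + hp n / 2 - (cc n b - hp n / 2) = hp n := by ring
  have e2 : cc n b - tau n + hh n / 2 - (cc n b - tau n - hh n / 2) = hh n := by ring
  rw [e1, e2] at h
  have e3 : hh n = (n : ℝ) ^ 5 * hp n := by
    unfold hh hp; field_simp
  have h' : hp n * γ.real (Ic n b) ≤ hp n * (21 * (n : ℝ) ^ 5 * γ.real (Vc n b)) := by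
    calc hp n * γ.real (Ic n b) ≤ hh n * 21 * γ.real (Vc n b) := h
      _ = _ := by rw [e3]; ring
  exact le_of_mul_le_mul_left h' hpp

lemma G_low (hn : 2 ≤ n) {i : ℤ} (hi : |(i : ℝ) * (hh n / 2)| ≤ 2) :
    hh n / 2 * (3 / 100) ≤ γ.real (Gc n i) := by
  have hhp := hh_pos hn
  have h2 := n_pos hn
  have hh512 : hh n ≤ 1 / 512 := by
    unfold hh
    apply one_div_le_one_div_of_le (by norm_num)
    calc (512 : ℝ) = 2 ^ 9 := by norm_num
      _ ≤ (n : ℝ) ^ 9 := pow_le_pow_left₀ (by norm_num) h2 9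
  have h := le_gamma_Ico (a := (i : ℝ) * (hh n / 2)) (b := ((i : ℝ) + 1) * (hh n / 2))
    (M := 3 / 100) (by nlinarith) (by
      rintro x ⟨hx1, hx2⟩
      apply ph_sqrt45
      have h3 : |x| ≤ 2 + 1 / 1024 := by
        rw [abs_le] at hi ⊢
        constructor <;> nlinarith
      calc x ^ 2 = |x| ^ 2 := (sq_abs x).symm
        _ ≤ (2 + 1 / 1024) ^ 2 := pow_le_pow_left₀ (abs_nonneg x) h3 2
        _ ≤ 9 / 2 := by norm_num)
  have e : ((i : ℝ) + 1) * (hh n / 2) - (i : ℝ) * (hh n / 2) = hh n / 2 := by ring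
  rw [e] at h
  exact h

end params

section tail

lemma integrable_pow14 : Integrable (fun x : ℝ => x ^ 14) γ := by
  have h := (memLp_id_gaussianReal (μ := 0) (v := 1) 14).integrable_norm_pow (by norm_num)
  have h2 : (fun x : ℝ => x ^ 14) = fun x => ‖id x‖ ^ 14 := by
    funext x
    rw [id, Real.norm_eq_abs, Even.pow_abs (by decide)]
  rw [h2]; exact h

/-- the tail constant -/
def CT : ℝ := 4 ^ 12 * (∫ x, x ^ 14 ∂γ) + 1

lemma CT_pos : 0 < CT := by
  have : 0 ≤ ∫ x, x ^ 14 ∂γ := integral_nonneg fun x => Even.pow_nonneg (by decide) x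
  unfold CT; positivity

lemma tail_gauss {n : ℕ} (hn : 2 ≤ n) :
    (∫ x in {x : ℝ | ((n : ℝ) - 1 / 2) - 1 ≤ |x|}, x ^ 2 ∂γ) ≤
      4 ^ 12 * (∫ x, x ^ 14 ∂γ) / (n : ℝ) ^ 12 := by
  have h2 := n_pos hn
  have hms : MeasurableSet {x : ℝ | ((n : ℝ) - 1 / 2) - 1 ≤ |x|} := by measurability
  have hi : Integrable (fun x : ℝ => 4 ^ 12 / (n : ℝ) ^ 12 * x ^ 14) γ := integrable_pow14.const_mul _
  calc (∫ x in {x : ℝ | ((n : ℝ) - 1 / 2) - 1 ≤ |x|}, x ^ 2 ∂γ)
      ≤ ∫ x in {x : ℝ | ((n : ℝ) - 1 / 2) - 1 ≤ |x|}, 4 ^ 12 / (n : ℝ) ^ 12 * x ^ 14 ∂γ := by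
        refine setIntegral_mono_on CLT.integrable_sq_gaussian.integrableOn hi.integrableOn hms ?_
        intro x hx
        have hx' : (n : ℝ) - 3 / 2 ≤ |x| := by
          have := hx.out; linarith
        have h3 : (n : ℝ) ≤ 4 * |x| := by linarith
        have h4 : (n : ℝ) ^ 12 ≤ (4 * |x|) ^ 12 := pow_le_pow_left₀ (by linarith) h3 12
        have h5 : (|x|) ^ 12 = x ^ 12 := Even.pow_abs (by decide) x
        rw [div_mul_eq_mul_div, le_div_iff₀ (by positivity)]
        calc x ^ 2 * (n : ℝ) ^ 12 ≤ x ^ 2 * (4 * |x|) ^ 12 := by gcongr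
          _ = 4 ^ 12 * x ^ 14 := by rw [mul_pow, h5]; ring
    _ ≤ ∫ x, 4 ^ 12 / (n : ℝ) ^ 12 * x ^ 14 ∂γ := by
        refine setIntegral_le_integral hi ?_
        filter_upwards with x
        have : 0 ≤ x ^ 14 := Even.pow_nonneg (by decide) x
        positivity
    _ = _ := by rw [integral_const_mul]; ring

end tail

section transfer

variable {ι : Type} [Fintype ι] [DecidableEq ι]

lemma ev_eq_avg (F : (ι → Bool) → ℝ) : ev F = CLT.avg F := by
  unfold ev CLT.avg
  congr 1
  simp

lemma ev_sigma {m : ℕ} (F : (Fin m → ι → Bool) → ℝ) :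
    ev (fun x : (Σ _ : Fin m, ι) → Bool => F (fun a k => x ⟨a, k⟩)) = CLT.avg F := by
  rw [ev_eq_avg]
  unfold CLT.avg
  congr 1
  · exact Fintype.sum_equiv (Equiv.piCurry (fun (_ : Fin m) (_ : ι) => Bool)) _ _ (fun x => rfl)
  · rw [Fintype.card_congr (Equiv.piCurry (fun (_ : Fin m) (_ : ι) => Bool))]


end transfer

end NiceAux

open NiceAux

theorem niceStmt : NiceStmt := by
  refine ⟨CT, CT_pos, fun n hn => ?_⟩
  have hn2 := n_pos hn
  have hLp : 0 < hp n * ph (n + 1) := mul_pos (hp_pos hn) (ph_pos _)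
  refine ⟨hp n * ph (n + 1) / 2, by positivity, fun ι _ _ Z hZ hJ => ?_⟩
  classical
  set J := ev (fun y => Z y ^ 2) with hJdef
  have h0 : CLT.avg Z = 0 := by rw [← ev_eq_avg]; exact hZ
  have h2 : CLT.avg (fun y => Z y ^ 2) = J := by rw [← ev_eq_avg]
  -- transfer of probabilities
  have hpr : ∀ (m : ℕ) (s : Set ℝ), pr (fun x : (Σ _ : Fin m, ι) → Bool =>
      zsum Z x / Real.sqrt (m * J)) s =
        CLT.avg (fun w : Fin m → ι → Bool => if CLT.nsum Z J m w ∈ s then (1 : ℝ) else 0) := by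
    intro m s
    rw [← ev_sigma]
    unfold pr
    congr 1
  have hIco : ∀ a b : ℝ, Tendsto (fun m : ℕ => pr (fun x : (Σ _ : Fin m, ι) → Bool =>
      zsum Z x / Real.sqrt (m * J)) (Set.Ico a b)) atTop (𝓝 (γ.real (Set.Ico a b))) := by
    intro a b
    simp_rw [hpr]
    refine (CLT.tendsto_avg_Ico Z J hJ h0 h2 a b).congr fun m => ?_
    congr 1
    funext w
    simp only [Set.mem_Ico]
  -- eventually statements
  have hV : ∀ᶠ m : ℕ in atTop, ∀ b ∈ Finset.range (KK n), hp n * ph (n + 1) / 2 ≤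
      pr (fun x : (Σ _ : Fin m, ι) → Bool => zsum Z x / Real.sqrt (m * J)) (Vc n b) := by
    rw [Filter.eventually_all_finset]
    intro b hb
    have hb' := Finset.mem_range.1 hb
    have hlow := V_lower hn hb'
    filter_upwards [(hIco (cc n b - hp n / 2) (cc n b + hp n / 2)).eventually_const_lt
      (show hp n * ph (n + 1) / 2 < γ.real (Set.Ico (cc n b - hp n / 2) (cc n b + hp n / 2)) from
        lt_of_lt_of_le (by linarith) hlow)] with m hm
    exact hm.le
  have hI : ∀ᶠ m : ℕ in atTop, ∀ b ∈ Finset.range (KK n),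
      pr (fun x : (Σ _ : Fin m, ι) → Bool => zsum Z x / Real.sqrt (m * J)) (Ic n b) ≤
      41 * (n : ℝ) ^ 5 *
        pr (fun x : (Σ _ : Fin m, ι) → Bool => zsum Z x / Real.sqrt (m * J)) (Vc n b) := by
    rw [Filter.eventually_all_finset]
    intro b hb
    have hb' := Finset.mem_range.1 hb
    have hIle := I_le' hn hb'
    have hVp := V_pos' hn hb'
    have h1 := (hIco (cc n b - hp n / 2) (cc n b + hp n / 2)).const_mul (41 * (n : ℝ) ^ 5)
    have h3 := hIco (cc n b - tau n - hh n / 2) (cc n b - tau n + hh n / 2)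
    have h4 : γ.real (Set.Ico (cc n b - tau n - hh n / 2) (cc n b - tau n + hh n / 2)) <
        41 * (n : ℝ) ^ 5 * γ.real (Set.Ico (cc n b - hp n / 2) (cc n b + hp n / 2)) := by
      have : 0 < (n : ℝ) ^ 5 * γ.real (Vc n b) := by positivity
      calc _ ≤ 21 * (n : ℝ) ^ 5 * γ.real (Vc n b) := hIle
        _ < 41 * (n : ℝ) ^ 5 * γ.real (Vc n b) := by nlinarith
    filter_upwards [h3.eventually_lt h1 h4] with m hm
    exact hm.le
  have hG : ∀ᶠ m : ℕ in atTop, ∀ i ∈ {i : ℤ | |(i : ℝ) * (hh n / 2)| ≤ 2},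
      hh n / 100 ≤
        pr (fun x : (Σ _ : Fin m, ι) → Bool => zsum Z x / Real.sqrt (m * J)) (Gc n i) := by
    have hfin : {i : ℤ | |(i : ℝ) * (hh n / 2)| ≤ 2}.Finite := by
      refine (Set.finite_Icc (-⌈4 / hh n⌉) ⌈4 / hh n⌉).subset ?_
      intro i hi
      have hi' : |(i : ℝ) * (hh n / 2)| ≤ 2 := hi
      have hhp := hh_pos hn
      rw [abs_le] at hi'
      have h5 : (i : ℝ) ≤ 4 / hh n := by
        rw [le_div_iff₀ hhp]; linarith [hi'.2]
      have h6 : -(4 / hh n) ≤ (i : ℝ) := by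
        rw [neg_le, ← sub_nonneg]
        have : 0 ≤ (4 + i * hh n) / hh n := div_nonneg (by linarith [hi'.1]) hhp.le
        have e : (4 + i * hh n) / hh n = 4 / hh n - -(i : ℝ) := by field_simp; ring
        rw [← e]; exact this
      constructor
      · have h7 : (-(⌈4 / hh n⌉ : ℤ) : ℝ) ≤ (i : ℝ) := by
          have := Int.le_ceil (4 / hh n)
          linarith
        exact_mod_cast h7
      · have h7 : (i : ℝ) ≤ (⌈4 / hh n⌉ : ℤ) := h5.trans (Int.le_ceil _)
        exact_mod_cast h7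
    rw [Filter.eventually_all_finite hfin]
    intro i hi
    have hlow := G_low hn hi
    have hhp := hh_pos hn
    filter_upwards [(hIco ((i : ℝ) * (hh n / 2)) (((i : ℝ) + 1) * (hh n / 2))).eventually_const_lt
      (show hh n / 100 < γ.real (Set.Ico ((i : ℝ) * (hh n / 2)) (((i : ℝ) + 1) * (hh n / 2))) from
        lt_of_lt_of_le (by linarith) hlow)] with m hm
    exact hm.le
  have hT := CLT.eventually_tail Z J hJ h0 h2 ((n : ℝ) - 1 / 2) (by linarith)
    (1 / (n : ℝ) ^ 12) (by positivity)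
  obtain ⟨m, hmV, hmI, hmG, hmT, hm0⟩ :=
    (hV.and (hI.and (hG.and (hT.and (eventually_gt_atTop 0))))).exists
  refine ⟨m, hm0, ?_, ?_, ?_, ?_, ?_, ?_⟩
  · exact (ev_sigma (fun w => CLT.nsum Z J m w)).trans (CLT.avg_nsum Z J h0 m)
  · exact (ev_sigma (fun w => CLT.nsum Z J m w ^ 2)).trans (CLT.avg_nsum_sq Z J hJ h0 h2 m hm0)
  · intro b hb; exact hmV b (Finset.mem_range.2 hb)
  · intro b hb; exact hmI b (Finset.mem_range.2 hb)
  · intro i hi; exact hmG i hi
  · refine (ev_sigma (fun w => (Int0 n)ᶜ.indicator (fun t => t ^ 2) (CLT.nsum Z J m w))).le.trans ?_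
    refine (CLT.avg_mono (g := fun w => if (n : ℝ) - 1 / 2 ≤ |CLT.nsum Z J m w| then
      CLT.nsum Z J m w ^ 2 else 0) ?_).trans (hmT.trans ?_)
    · intro w
      by_cases hw : CLT.nsum Z J m w ∈ Int0 n
      · rw [Set.indicator_of_notMem (by simpa using hw)]
        split_ifs <;> positivity
      · rw [Set.indicator_of_mem (by simpa using hw)]
        have ht1 : tau n ≤ 1 / 2 := by
          unfold tau; exact one_div_le_one_div_of_le (by norm_num) hn2
        have ht0 := tau_pos hn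
        have : (n : ℝ) - 1 / 2 ≤ |CLT.nsum Z J m w| := by
          unfold Int0 at hw
          rw [Set.mem_Ico, not_and_or, not_le, not_lt] at hw
          rcases hw with hw | hw
          · have := neg_abs_le (CLT.nsum Z J m w); linarith
          · have := le_abs_self (CLT.nsum Z J m w); linarith
        rw [if_pos this]
    · have := tail_gauss hn
      unfold CT
      rw [add_div]
      linarith

end Crest.Agent.R063

end
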